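import Vale.Agent.P050.R2.H545.HubE2b

/-!
# P050: ordered constructions, the stage of the dominated vertices
-/

set_option linter.unusedSectionVars false

namespace Vale.Agent.P050.Books

open Finset Vale.Agent.P050.Lev Vale.Agent.P050.Ears

section Ord2

variable {V S : Type} [Fintype V] [DecidableEq V] [Fintype S]
  {side : V → Bool} {A : Matrix S S ℝ} {μ : S → ℝ} {c : S → Bool}

/-- a law for the whole graph bounds the density from below -/
theorem LawG.exp_le (h : Rev A μ c) {H : SimpleGraph V} {ρ L : (V → S) → ℝ} {F : ℝ}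
    (hl : LawG H side A μ c univ ρ L F) : Real.exp F ≤ ∑ z : V → S, wt H side A μ c z := by
  classical
  have e1 : ∑ z : V → S, wt H side A μ c z = EM side μ c (edgeW H side A μ univ) := by
    unfold EM
    refine Finset.sum_congr rfl fun z _ => ?_
    by_cases hz : ∀ v, c (z v) = side v
    · rw [wt_pos hz]
      have hM : (∏ v, mm side μ c v (z v)) = ∏ v, μ (z v) := by
        refine Finset.prod_congr rfl fun v _ => ?_
        unfold mm
        exact if_pos (hz v)
      rw [hM]
      congr 1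
      unfold edgeW
      have : (sideEdges H side).filter (fun e => e.1 ∈ (univ : Finset V) ∧
          e.2 ∈ (univ : Finset V)) = sideEdges H side := by
        refine Finset.filter_true_of_mem fun e _ => ⟨mem_univ _, mem_univ _⟩
      rw [this]
      rfl
    · rw [wt_neg hz]
      have : (∏ v, mm side μ c v (z v)) = 0 := by
        push Not at hz
        obtain ⟨v, hv⟩ := hz
        refine Finset.prod_eq_zero (mem_univ v) ?_
        unfold mm
        exact if_neg hv
      rw [this, zero_mul]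
  rw [e1]
  have h0 : EM side μ c (fun z => ρ z * L z) ≤ EM side μ c (edgeW H side A μ univ) :=
    EM_mono h fun z hz => hl.mul z hz
  have h1 : EM side μ c (fun z => ρ z * (Real.log (L z) - F)) ≤
      EM side μ c (fun z => ρ z * L z * Real.exp (-F) - ρ z) := by
    refine EM_mono h fun z hz => ?_
    by_cases h0 : ρ z = 0
    · rw [h0, zero_mul, zero_mul, zero_mul, sub_zero]
    · have h2 := Real.log_le_sub_one_of_pos (mul_pos (hl.pos z hz h0) (Real.exp_pos (-F)))
      rw [Real.log_mul (hl.pos z hz h0).ne' (Real.exp_pos _).ne', Real.log_exp] at h2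
      have h3 := mul_le_mul_of_nonneg_left h2 (hl.nonneg z)
      linarith
  have h2 : EM side μ c (fun z => ρ z * (Real.log (L z) - F)) =
      EM side μ c (fun z => ρ z * Real.log (L z)) - F := by
    have e2 : EM side μ c (fun z => ρ z * (Real.log (L z) - F)) =
        EM side μ c (fun z => ρ z * Real.log (L z) - F * ρ z) :=
      EM_congr fun z _ => by ring
    rw [e2, EM_sub]
    have e3 : EM side μ c (fun z => F * ρ z) = F * EM side μ c ρ := by
      unfold EM
      rw [Finset.mul_sum]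
      exact Finset.sum_congr rfl fun z _ => by ring
    rw [e3, hl.one, mul_one]
  have h3 : EM side μ c (fun z => ρ z * L z * Real.exp (-F) - ρ z) =
      EM side μ c (fun z => ρ z * L z) * Real.exp (-F) - 1 := by
    rw [EM_sub, hl.one]
    congr 1
    unfold EM
    rw [Finset.sum_mul]
    exact Finset.sum_congr rfl fun z _ => by ring
  rw [h2, h3] at h1
  have h4 := hl.log
  have h5 : 1 ≤ EM side μ c (fun z => ρ z * L z) * Real.exp (-F) := by linarith
  have h6 := mul_le_mul_of_nonneg_right h5 (Real.exp_pos F).le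
  rw [one_mul, mul_assoc, ← Real.exp_add, neg_add_cancel, Real.exp_zero, mul_one] at h6
  exact h6.trans h0

/-- STAGE W: dominated vertices over an ordered law -/
theorem OLaw.stageW (h : Rev A μ c) {H : SimpleGraph V}
    (hs : ∀ u v, H.Adj u v → side u ≠ side v) {σ : Bool} {K : SimpleGraph V}
    {Q : V → Finset V} {A₁ Z : Finset V} {ρ L : (V → S) → ℝ} {F : ℝ} {d : ℕ → ℝ}
    (hd : ∀ P : Finset V, (∀ x ∈ P, side x = σ) → Books.dd side A μ c P = d P.card)
    (hl : OLaw H side A μ c σ K Q A₁ Z ρ L F) (N C T : V → Finset V) (W : Finset V)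
    (hW : ∀ w ∈ W, side w = σ ∧ w ∉ A₁)
    (hN : ∀ w ∈ W, N w ⊆ Z ∧ (N w).Nonempty ∧ ∀ u, u ∈ N w ↔ H.Adj w u)
    (hC : ∀ w ∈ W, (C w).Nonempty ∧ ∀ u ∈ N w, C w ⊆ Q u)
    (hT : ∀ w ∈ W, T w ⊆ A₁ ∧ Cq K (T w) ∧ ∀ u ∈ N w, Q u ⊆ T w) :
    ∃ ρ' L' : (V → S) → ℝ, LawG H side A μ c (A₁ ∪ Z ∪ W) ρ' L'
      (F + ∑ w ∈ W, (∑ z ∈ N w, (d (Q z).card - d ((Q z).card - (C w).card)) -
        (d (T w).card - d ((T w).card - (C w).card))) / (C w).card) := by
  have key : ∀ W' : Finset V, W' ⊆ W →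
      ∃ ρ' L' : (V → S) → ℝ, LawG H side A μ c (A₁ ∪ Z ∪ W') ρ' L'
        (F + ∑ w ∈ W', (∑ z ∈ N w, (d (Q z).card - d ((Q z).card - (C w).card)) -
          (d (T w).card - d ((T w).card - (C w).card))) / (C w).card) ∧
      FanC side A μ c K (A₁ ∪ Z ∪ W') ρ' A₁ Z Q ∧
      ∀ P ⊆ A₁, Cq K P → DD side μ c ρ' P = d P.card := by
    intro W'
    induction W' using Finset.induction_on with
    | empty =>
      intro _
      rw [Finset.union_empty, Finset.sum_empty, add_zero]
      exact ⟨ρ, L, hl.law, hl.fanC h hd, fun P hP hPc => hl.dd h hd hP hPc⟩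
    | insert w W' hwW ih =>
      intro hW'
      obtain ⟨ρ, L, hl, hf, hD⟩ := ih ((Finset.subset_insert _ _).trans hW')
      have hwm := hW' (mem_insert_self _ _)
      obtain ⟨hws, hwA⟩ := hW w hwm
      obtain ⟨hRZ, ⟨r', hrR⟩, hNw⟩ := hN w hwm
      obtain ⟨⟨a, ha⟩, hCw⟩ := hC w hwm
      obtain ⟨hTA, hTcw, htR⟩ := hT w hwm
      have hwU : w ∉ A₁ ∪ Z ∪ W' := by
        simp only [mem_union, not_or]
        refine ⟨⟨hwA, fun hm => ?_⟩, hwW⟩
        have h1 := hf.sd w hm a (hTA (htR r' hrR (hCw r' hrR ha)))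
        obtain ⟨u, hu⟩ := hf.qn w hm
        have h2 := hf.sd w hm u (hf.qs w hm hu)
        obtain ⟨u', hu'⟩ := hf.qn r' (hRZ hrR)
        have h3 := hf.sd r' (hRZ hrR) u' (hf.qs r' (hRZ hrR) hu')
        have h4 := hf.sd w hm u' (hf.qs r' (hRZ hrR) hu')
        have h5 := hs _ _ ((hNw r').1 hrR)
        exact h5 (side_eq3 h4 h3)
      have hAU : A₁ ⊆ A₁ ∪ Z ∪ W' := Finset.subset_union_left.trans Finset.subset_union_left
      have hRU : N w ⊆ A₁ ∪ Z ∪ W' := fun u hu =>
        mem_union_left _ (mem_union_right _ (hRZ hu))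
      have hp : ∀ z : V → S, (∏ v, mm side μ c v (z v)) ≠ 0 → ρ z ≠ 0 →
          0 < hQ A μ (N w) z :=
        fun z hz h0 => Books.hQ_pos h (x := z a) fun u hu => by
          have := hf.kp z hz h0 u (hRZ hu) a (hCw u hu ha)
          rw [kk_symm h] at this
          exact this.ne'
      have hsdR : ∀ i ∈ N w, side i ≠ side w := fun i hi => (hs _ _ ((hNw i).1 hi)).symm
      have hG := hf.low h hl.nonneg hl.one hRZ ⟨r', hrR⟩ hCw hTA hTcw htR
      have e1 : ∑ u ∈ N w, (DD side μ c ρ (Q u) - DD side μ c ρ (Q u \ C w)) =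
          ∑ z ∈ N w, (d (Q z).card - d ((Q z).card - (C w).card)) := by
        refine Finset.sum_congr rfl fun u hu => ?_
        have h1 : Q u ⊆ A₁ := (htR u hu).trans hTA
        have h2 : Cq K (Q u) := hTcw.mono (htR u hu)
        rw [hD _ h1 h2, hD _ (Finset.sdiff_subset.trans h1) (h2.mono Finset.sdiff_subset),
          Finset.card_sdiff_of_subset (hCw u hu)]
      have hCT : C w ⊆ T w := (hCw r' hrR).trans (htR r' hrR)
      rw [e1, hD _ hTA hTcw, hD _ (Finset.sdiff_subset.trans hTA)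
        (hTcw.mono Finset.sdiff_subset), Finset.card_sdiff_of_subset hCT, mul_comm] at hG
      have hc0 : (0 : ℝ) < (C w).card := Nat.cast_pos.2 (Finset.card_pos.2 ⟨a, ha⟩)
      have hG' := (div_le_iff₀ hc0).2 hG
      rw [Finset.union_insert, Finset.sum_insert hwW, add_comm (_ / _) (∑ w ∈ W', _),
        ← add_assoc]
      refine ⟨_, _, hl.attach h hs hwU ⟨r', hrR⟩ hRU (fun x _ => (hNw x).symm) hp hG',
        hf.keep h hl.dep hwU hRU hrR (hsdR r' hrR) hp, fun P hP hPc => ?_⟩
      rw [DD_keep h hl.dep hwU hRU hrR (hsdR r' hrR) hp (hP.trans hAU)]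
      exact hD P hP hPc
  obtain ⟨ρ, L, hl, -, -⟩ := key W (Finset.Subset.refl _)
  exact ⟨ρ, L, hl⟩

end Ord2

end Vale.Agent.P050.Books
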