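import Vale.Agent.P050.R5.H557.Near

/-!
# P050: from reversible chains to graphs, with a loss
-/

set_option linter.unusedSectionVars false

namespace Vale.Agent.P050.Books

open Finset Vale.Agent.P050.Lev Vale.Agent.P050.Ears Vale.Agent.P050.H149 Vale.Agent.P050.H148

open Classical in
/-- The inequality with a loss for reversible chains implies the inequality with a loss for
biregular weighted kernels. -/
theorem biregNear_of_rev {V : Type} [Fintype V] [DecidableEq V] (H : SimpleGraph V)
    (side : V → Bool) (k : ℝ)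
    (h : ∀ (S : Type) [Fintype S] [DecidableEq S] [Nonempty S] (A : Matrix S S ℝ) (μ : S → ℝ)
      (c : S → Bool), Rev A μ c → ∀ δ : ℝ, 0 < δ → δ ≤ 1 → (∀ u v, A u v * δ ≤ μ v) →
        δ ^ k ≤ ∑ z : V → S, wt H side A μ c z) : BiregNear (sideEdges H side) side k := by
  intro U _ m W hm hm1 hW hr hc δ hδ hδ1 hWδ
  have hrev := st_rev m W hm hm1 hW hr hc
  have hne : Nonempty (St m) := by
    have h1 : ∃ x, m false x ≠ 0 := by
      by_contra hcon
      push Not at hcon
      have := hm1 false
      simp [hcon] at this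
    obtain ⟨x, hx⟩ := h1
    exact ⟨⟨(false, x), hx⟩⟩
  refine (h (St m) _ _ _ hrev δ hδ hδ1 ?_).trans ?_
  · intro u v
    have key : ∀ x y, W x y * m v.1.1 v.1.2 * δ ≤ m v.1.1 v.1.2 := fun x y => by
      calc W x y * m v.1.1 v.1.2 * δ = m v.1.1 v.1.2 * (W x y * δ) := by ring
        _ ≤ m v.1.1 v.1.2 := mul_le_of_le_one_right (hm _ _) (hWδ x y)
    unfold stA
    split_ifs
    · exact key _ _
    · rw [zero_mul]
      exact hm _ _
    · exact key _ _
    · rw [zero_mul]
      exact hm _ _
  let G : (V → U) → ℝ := fun z =>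
    (∏ v, m (side v) (z v)) * ∏ e ∈ sideEdges H side, W (z e.1) (z e.2)
  let φ : (V → St m) → (V → U) := fun z v => (z v).1.2
  have hG : ∀ z, 0 ≤ G z := fun z =>
    mul_nonneg (Finset.prod_nonneg fun _ _ => hm _ _) (Finset.prod_nonneg fun _ _ => hW _ _)
  have h1 : ∑ z : V → St m, wt H side (stA m W) (fun s => m s.1.1 s.1.2) (fun s => s.1.1) z =
      ∑ z ∈ univ.filter (fun z : V → St m => ∀ v, (z v).1.1 = side v), G (φ z) := by
    rw [Finset.sum_filter]
    refine Finset.sum_congr rfl fun z _ => ?_
    unfold Ears.wt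
    split_ifs with hz
    swap
    · rfl
    congr 1
    · refine Finset.prod_congr rfl fun v _ => ?_
      rw [← hz v]
    · refine Finset.prod_congr rfl fun e he => ?_
      have he' := (mem_filter.1 he).2
      have z1 : (z e.1).1.1 = false := (hz e.1).trans he'.2.1
      have z2 : (z e.2).1.1 = true := (hz e.2).trans he'.2.2
      simp only [stA]
      rw [if_pos z1, if_pos z2, mul_div_assoc, div_self (z e.2).2, mul_one]
  rw [h1]
  have hinj : Set.InjOn φ ↑(univ.filter (fun z : V → St m => ∀ v, (z v).1.1 = side v)) := by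
    intro z hz z' hz' hzz
    have a1 := (mem_filter.1 (Finset.mem_coe.1 hz)).2
    have a2 := (mem_filter.1 (Finset.mem_coe.1 hz')).2
    funext v
    apply Subtype.ext
    exact Prod.ext ((a1 v).trans (a2 v).symm) (congrFun hzz v)
  rw [← Finset.sum_image hinj]
  exact Finset.sum_le_sum_of_subset_of_nonneg (Finset.subset_univ _) fun z _ _ => hG z

/-- NEAR STEP: the inequality with a loss for reversible chains implies the inequality with a
larger exponent for graphs. -/
theorem near_of_rev {V : Type} [Fintype V] [DecidableEq V] (H : SimpleGraph V) (side : V → Bool)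
    (hs : ∀ u v, H.Adj u v → side u ≠ side v) (hiso : ∀ v, ∃ u, H.Adj v u) (k : ℝ) (hk : 0 ≤ k)
    (h : ∀ (S : Type) [Fintype S] [DecidableEq S] [Nonempty S] (A : Matrix S S ℝ) (μ : S → ℝ)
      (c : S → Bool), Rev A μ c → ∀ δ : ℝ, 0 < δ → δ ≤ 1 → (∀ u v, A u v * δ ≤ μ v) →
        δ ^ k ≤ ∑ z : V → S, wt H side A μ c z) :
    ∀ H₀ : SimpleGraph V, H₀ ≤ H → ∀ (U : Type) [Finite U] [Nonempty U] (G : SimpleGraph U),
      edgeDensity G ^ ((Nat.card H.edgeSet : ℝ) + k) ≤ homDensity H₀ G := by
  classical
  intro H₀ hH₀ U _ _ G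
  refine le_trans ?_ (homDensity_anti hH₀ G)
  obtain ⟨n, m, W, hm, hm1, hW, hW1, hp, ht⟩ := exists_kernel G
  have hB := biregNear_of_rev H side k h
  have h1 := near_of_bireg hk (fun e he => (mem_filter.1 he).2.2) (by
    intro v
    obtain ⟨u, hu⟩ := hiso v
    have h1 := hs v u hu
    cases hv : side v
    · refine ⟨(v, u), ?_, Or.inl rfl⟩
      simp only [sideEdges, mem_filter, mem_univ, true_and]
      refine ⟨hu, hv, ?_⟩
      cases hu' : side u
      · exact absurd (hv.trans hu'.symm) h1
      · rfl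
    · refine ⟨(u, v), ?_, Or.inr rfl⟩
      simp only [sideEdges, mem_filter, mem_univ, true_and]
      refine ⟨hu.symm, ?_, hv⟩
      cases hu' : side u
      · rfl
      · exact absurd (hv.trans hu'.symm) h1) hB m W hm hm1 hW hW1
  have h2 : H149.dens (sideEdges H side) side m W = homDensity H G := ht V H side hs
  rw [h2, hp, card_sideEdges H side hs] at h1
  have h0 : 0 ≤ edgeDensity G := by
    unfold edgeDensity
    positivity
  refine le_trans (le_of_eq ?_) h1
  rw [Real.rpow_add_of_nonneg h0 (Nat.cast_nonneg _) hk, Real.rpow_natCast]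

section Law

variable {V S : Type} [Fintype V] [DecidableEq V] [Fintype S]
  {side : V → Bool} {A : Matrix S S ℝ} {μ : S → ℝ} {c : S → Bool}

/-- a law with a small loss -/
theorem LawG.near (h : Rev A μ c) {H : SimpleGraph V} {ρ L : (V → S) → ℝ} {F k x δ : ℝ}
    (hl : LawG H side A μ c univ ρ L F) (hk : 0 ≤ k) (hF : -(k * x) ≤ F)
    (hx : x ≤ -Real.log δ) (hδ : 0 < δ) : δ ^ k ≤ ∑ z : V → S, wt H side A μ c z := by
  refine le_trans ?_ (hl.exp_le h)
  rw [Real.rpow_def_of_pos hδ]
  refine Real.exp_le_exp.2 (le_trans ?_ hF)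
  have h1 := mul_le_mul_of_nonneg_left hx hk
  linarith

/-- one more leaf -/
theorem dd_insert_le (h : Rev A μ c) {σ : Bool} {P : Finset V} {a : V} (ha : a ∉ P)
    (hP : P.Nonempty) (hsd : ∀ x ∈ insert a P, side x = σ) {δ : ℝ} (hδ : 0 < δ)
    (hA : ∀ u v, A u v * δ ≤ μ v) :
    dd side A μ c (insert a P) ≤ dd side A μ c P - Real.log δ := by
  have hsd2 : ∀ i ∈ insert a P, ∀ j ∈ insert a P, side i = side j := fun i hi j hj =>
    (hsd i hi).trans (hsd j hj).symm
  have hkk : ∀ u v, kk A μ u v * δ ≤ 1 := by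
    intro u v
    unfold kk
    rw [div_mul_eq_mul_div, div_le_one (h.pos v)]
    exact hA u v
  have hle : ∀ z : V → S, hh A μ (insert a P) z * δ ≤ hh A μ P z := by
    intro z
    rw [hh_of _ (Finset.insert_nonempty a P), hh_of _ hP]
    unfold hQ
    rw [Finset.sum_mul]
    refine Finset.sum_le_sum fun y _ => ?_
    rw [Finset.prod_insert ha]
    have h1 : 0 ≤ μ y * ∏ i ∈ P, kk A μ (z i) y :=
      mul_nonneg (h.pos y).le (Finset.prod_nonneg fun _ _ => kk_nonneg h _ _)
    calc μ y * (kk A μ (z a) y * ∏ i ∈ P, kk A μ (z i) y) * δ =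
          (μ y * ∏ i ∈ P, kk A μ (z i) y) * (kk A μ (z a) y * δ) := by ring
      _ ≤ _ := mul_le_of_le_one_right h1 (hkk _ _)
  have hone : EM side μ c (hh A μ (insert a P)) = 1 := by
    have := hh_marg (side := side) h (Finset.empty_subset (insert a P)) hsd2 (f := fun _ => 1)
      (fun _ _ _ => rfl)
    simp only [mul_one, hh_empty] at this
    exact this.trans (EM_one h)
  have h1 : dd side A μ c (insert a P) ≤
      EM side μ c (fun z => hh A μ (insert a P) z * Real.log (hh A μ P z) -
        hh A μ (insert a P) z * Real.log δ) := by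
    unfold dd
    refine EM_mono h fun z _ => ?_
    by_cases h0 : hh A μ (insert a P) z = 0
    · rw [h0]
      simp
    · have hpos : 0 < hh A μ (insert a P) z := lt_of_le_of_ne (hh_nonneg h _ _) (Ne.symm h0)
      have h2 := Real.log_le_log (mul_pos hpos hδ) (hle z)
      rw [Real.log_mul hpos.ne' hδ.ne'] at h2
      have h3 := mul_le_mul_of_nonneg_left h2 hpos.le
      linarith
  refine h1.trans (le_of_eq ?_)
  rw [EM_sub]
  congr 1
  · have h2 := hh_marg (side := side) h (Finset.subset_insert a P) hsd2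
      (f := fun z => Real.log (hh A μ P z)) (by
        intro z z' hz
        show Real.log (hh A μ P z) = Real.log (hh A μ P z')
        rw [depOn_hh P z z' hz])
    rw [h2]
    rfl
  · have e1 : EM side μ c (fun z => hh A μ (insert a P) z * Real.log δ) =
        EM side μ c (hh A μ (insert a P)) * Real.log δ := by
      unfold EM
      rw [Finset.sum_mul]
      exact Finset.sum_congr rfl fun z _ => by ring
    rw [e1, hone, one_mul]

/-- the increments of the entropies of stars -/
theorem d_succ_le (h : Rev A μ c) {σ : Bool} {d : ℕ → ℝ}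
    (hd : ∀ P : Finset V, (∀ x ∈ P, side x = σ) → Books.dd side A μ c P = d P.card) {M : ℕ}
    (hM : M + 1 ≤ (univ.filter fun v => side v = σ).card) {δ : ℝ} (hδ : 0 < δ) (hδ1 : δ ≤ 1)
    (hA : ∀ u v, A u v * δ ≤ μ v) : d (M + 1) - d M ≤ -Real.log δ := by
  have hlog : Real.log δ ≤ 0 := Real.log_nonpos hδ.le hδ1
  obtain ⟨T, hT, hTc⟩ := Finset.exists_subset_card_eq hM
  have hTs : ∀ x ∈ T, side x = σ := fun x hx => (mem_filter.1 (hT hx)).2
  have hTn : T.Nonempty := Finset.card_pos.1 (by omega)
  obtain ⟨a, ha⟩ := hTn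
  have hP : (T.erase a).card = M := by
    rw [Finset.card_erase_of_mem ha, hTc, Nat.add_sub_cancel]
  have h1 := hd T hTs
  have h2 := hd (T.erase a) fun x hx => hTs x (Finset.mem_of_mem_erase hx)
  rw [hTc] at h1
  rw [hP] at h2
  rcases Finset.eq_empty_or_nonempty (T.erase a) with h3 | h3
  · have hTa : T = {a} := by
      rw [← Finset.insert_erase ha, h3]
      rfl
    have hz1 : dd side A μ c T = 0 := by
      rw [hTa]
      unfold dd
      have : ∀ z : V → S, hh A μ {a} z = 1 := fun z => by
        rw [hh_of _ (Finset.singleton_nonempty a)]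
        exact hQ_singleton h a _
      simp only [this, Real.log_one, mul_zero]
      unfold EM
      simp
    have hz2 : dd side A μ c (T.erase a) = 0 := by
      rw [h3]
      unfold dd
      simp only [hh_empty, Real.log_one, mul_zero]
      unfold EM
      simp
    rw [← h1, ← h2, hz1, hz2]
    linarith
  · have h4 := dd_insert_le (side := side) (c := c) h (Finset.notMem_erase a T) h3 (σ := σ)
      (by rw [Finset.insert_erase ha]; exact hTs) hδ hA
    rw [Finset.insert_erase ha, h1, h2] at h4
    linarith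

end Law

end Vale.Agent.P050.Books
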