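import Vale.Agent.P050.R5.H557.Near2

/-!
# P050: from reversible chains to graphs, with a loss, both sides together
-/

set_option linter.unusedSectionVars false

namespace Vale.Agent.P050.Books

open Finset Vale.Agent.P050.Lev Vale.Agent.P050.Ears Vale.Agent.P050.H149 Vale.Agent.P050.H148

section Red2

variable {V : Type} [Fintype V] [DecidableEq V]

/-- The inequality for biregular kernels, for both sides together. -/
def BiregNear2 (E E' : Finset (V × V)) (side side' : V → Bool) (k : ℝ) : Prop :=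
  ∀ (U : Type) [Fintype U] (m : Bool → U → ℝ) (W : U → U → ℝ), (∀ b x, 0 ≤ m b x) →
    (∀ b, ∑ x, m b x = 1) → (∀ x y, 0 ≤ W x y) →
    (∀ x, m false x ≠ 0 → ∑ y, m true y * W x y = 1) →
    (∀ y, m true y ≠ 0 → ∑ x, m false x * W x y = 1) →
    ∀ δ : ℝ, 0 < δ → δ ≤ 1 → (∀ x y, W x y * δ ≤ 1) →
    δ ^ (2 * k) ≤ (∑ z : V → U, (∏ v, m (side v) (z v)) * ∏ e ∈ E, W (z e.1) (z e.2)) *
      ∑ z : V → U, (∏ v, m (side' v) (z v)) * ∏ e ∈ E', W (z e.1) (z e.2)

/-- the density is at least the part of one type -/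
theorem cmp_type (E : Finset (V × V)) (side : V → Bool)
    {U : Type} [Fintype U] (m : Bool → U → ℝ) (W : U → U → ℝ) (hm : ∀ b x, 0 ≤ m b x)
    (hW : ∀ x y, 0 ≤ W x y) (N : ℕ) {τ : U × U → Fin (N + 1)}
    {u₀ v₀ : Fin N → U} (h₀ : ty u₀ v₀ = τ) :
    (∏ v, cU τ m u₀ v₀ (side v)) * (wt2 W u₀ v₀ * dg τ u₀ / (LB τ).card) ^ E.card *
      H149.dens E side (mU τ) (WU τ (dg τ u₀)) ≤ H149.dens E side m W ^ N := by
  classical
  have hc0 := cU_nonneg τ hm u₀ v₀
  set c := cU τ m u₀ v₀ with hc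
  have hω0 := wt2_nonneg hW u₀ v₀
  set κ := wt2 W u₀ v₀ * dg τ u₀ / (LB τ).card with hκ
  have hκ0 : 0 ≤ κ := by positivity
  rw [dens_pow]
  unfold H149.dens
  rw [mul_sum]
  refine sum_le_sum fun z _ => ?_
  calc (∏ v, c (side v)) * κ ^ E.card *
        ((∏ v, mU τ (side v) (z v)) * ∏ e ∈ E, WU τ (dg τ u₀) (z e.1) (z e.2))
      = (∏ v, c (side v) * mU τ (side v) (z v)) *
        ∏ e ∈ E, κ * WU τ (dg τ u₀) (z e.1) (z e.2) := by
        rw [prod_mul_distrib, prod_mul_distrib, prod_const]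
        ring
    _ ≤ _ := by
        refine mul_le_mul ?_ ?_ ?_ ?_
        · exact prod_le_prod (fun v _ => mul_nonneg (hc0 _) (mU_nonneg τ _ _))
            fun v _ => cU_mul_le hm h₀ _ _
        · exact prod_le_prod (fun e _ => mul_nonneg hκ0 (WU_nonneg τ _ _ _))
            fun e _ => WU_mul_le hW h₀ _ _
        · exact prod_nonneg fun e _ => mul_nonneg hκ0 (WU_nonneg τ _ _ _)
        · exact prod_nonneg fun v _ => H149.wt_nonneg (hm _) _

theorem key_near2 {E E' : Finset (V × V)} {side side' : V → Bool} {k : ℝ} (hk : 0 ≤ k)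
    (hdir : ∀ e ∈ E, side e.1 = false ∧ side e.2 = true)
    (hiso : ∀ v, ∃ e ∈ E, e.1 = v ∨ e.2 = v)
    (hdir' : ∀ e ∈ E', side' e.1 = false ∧ side' e.2 = true)
    (hiso' : ∀ v, ∃ e ∈ E', e.1 = v ∨ e.2 = v) (hB : BiregNear2 E E' side side' k)
    {U : Type} [Fintype U] (m : Bool → U → ℝ) (W : U → U → ℝ) (hm : ∀ b x, 0 ≤ m b x)
    (hm1 : ∀ b, ∑ x, m b x = 1) (hW : ∀ x y, 0 ≤ W x y) (hW1 : ∀ x y, W x y ≤ 1)
    (N : ℕ) {τ : U × U → Fin (N + 1)} {u₀ v₀ : Fin N → U} (h₀ : ty u₀ v₀ = τ) :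
    0 ≤ qU τ m W ∧ qU τ m W ^ (E.card + E'.card) * qU τ m W ^ (2 * k) ≤
      H149.dens E side m W ^ N * H149.dens E' side' m W ^ N := by
  classical
  have hB0 := card_LB_pos h₀
  have hd0 := dg_pos h₀
  set δ : ℝ := dg τ u₀ / (LB τ).card with hδ
  have hδ0 : 0 < δ := div_pos hd0 hB0
  have hδ1 : δ ≤ 1 := by
    rw [hδ, div_le_one hB0]
    exact_mod_cast dg_le_card_LB u₀
  have h1 : δ ^ (2 * k) ≤ H149.dens E side (mU τ) (WU τ (dg τ u₀)) *
      H149.dens E' side' (mU τ) (WU τ (dg τ u₀)) :=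
    hB (Fin N → U) (mU τ) (WU τ (dg τ u₀)) (mU_nonneg τ) (mU_sum h₀) (WU_nonneg τ _)
      (WU_row h₀) (WU_col h₀) δ hδ0 hδ1 (by
        intro x y
        unfold WU
        split_ifs
        · rw [hδ]
          apply le_of_eq
          field_simp
        · rw [zero_mul]
          exact zero_le_one)
  have hcmp := cmp_type E side m W hm hW N h₀
  have hcmp' := cmp_type E' side' m W hm hW N h₀
  have hc0 := cU_nonneg τ hm u₀ v₀
  have hc1 := cU_le_one hm hm1 h₀
  set c := cU τ m u₀ v₀ with hc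
  have hω0 := wt2_nonneg hW u₀ v₀
  have hω1 := wt2_le_one hW hW1 u₀ v₀
  set κ := wt2 W u₀ v₀ * dg τ u₀ / (LB τ).card with hκ
  have hκ0 : 0 ≤ κ := by positivity
  have hκδ : κ ≤ δ := by
    rw [hκ, mul_div_assoc]
    exact mul_le_of_le_one_left hδ0.le hω1
  have hq := qU_eq m W h₀
  rw [← hκ, ← hc] at hq
  have hcc : c false * c true ≤ 1 := mul_le_one₀ (hc1 false) (hc0 true) (hc1 true)
  have hcc0 : 0 ≤ c false * c true := mul_nonneg (hc0 _) (hc0 _)
  have hq0 : 0 ≤ qU τ m W := by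
    rw [hq]
    exact mul_nonneg hcc0 hκ0
  have hqδ : qU τ m W ≤ δ := by
    rw [hq]
    exact (mul_le_of_le_one_left hκ0 hcc).trans hκδ
  refine ⟨hq0, ?_⟩
  have hD0 : 0 ≤ H149.dens E side (mU τ) (WU τ (dg τ u₀)) := sum_nonneg fun z _ =>
    mul_nonneg (prod_nonneg fun v _ => mU_nonneg τ _ _) (prod_nonneg fun e _ => WU_nonneg τ _ _ _)
  have hD0' : 0 ≤ H149.dens E' side' (mU τ) (WU τ (dg τ u₀)) := sum_nonneg fun z _ =>
    mul_nonneg (prod_nonneg fun v _ => mU_nonneg τ _ _) (prod_nonneg fun e _ => WU_nonneg τ _ _ _)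
  have h2 : qU τ m W ^ E.card * H149.dens E side (mU τ) (WU τ (dg τ u₀)) ≤
      H149.dens E side m W ^ N := by
    refine le_trans ?_ hcmp
    refine mul_le_mul_of_nonneg_right ?_ hD0
    rw [hq, mul_pow]
    exact mul_le_mul_of_nonneg_right (prod_side_ge hdir hiso c hc0 hc1) (pow_nonneg hκ0 _)
  have h3 : qU τ m W ^ E'.card * H149.dens E' side' (mU τ) (WU τ (dg τ u₀)) ≤
      H149.dens E' side' m W ^ N := by
    refine le_trans ?_ hcmp'
    refine mul_le_mul_of_nonneg_right ?_ hD0'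
    rw [hq, mul_pow]
    exact mul_le_mul_of_nonneg_right (prod_side_ge hdir' hiso' c hc0 hc1) (pow_nonneg hκ0 _)
  calc qU τ m W ^ (E.card + E'.card) * qU τ m W ^ (2 * k)
      ≤ qU τ m W ^ (E.card + E'.card) * δ ^ (2 * k) :=
        mul_le_mul_of_nonneg_left (Real.rpow_le_rpow hq0 hqδ (by linarith)) (pow_nonneg hq0 _)
    _ ≤ qU τ m W ^ (E.card + E'.card) * (H149.dens E side (mU τ) (WU τ (dg τ u₀)) *
          H149.dens E' side' (mU τ) (WU τ (dg τ u₀))) :=
        mul_le_mul_of_nonneg_left h1 (pow_nonneg hq0 _)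
    _ = (qU τ m W ^ E.card * H149.dens E side (mU τ) (WU τ (dg τ u₀))) *
          (qU τ m W ^ E'.card * H149.dens E' side' (mU τ) (WU τ (dg τ u₀))) := by
        rw [pow_add]
        ring
    _ ≤ _ := mul_le_mul h2 h3 (mul_nonneg (pow_nonneg hq0 _) hD0')
        ((mul_nonneg (pow_nonneg hq0 _) hD0).trans h2)

/-- a factor of polynomial size does not matter -/
theorem le_of_pow_le {x t : ℝ} (hx : 0 ≤ x) (ht : 0 ≤ t) (K : ℕ)
    (h : ∀ N : ℕ, x ^ N ≤ t ^ N * ((N : ℝ) + 1) ^ K) : x ≤ t := by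
  rcases hx.eq_or_lt with hx' | hx'
  · rw [← hx']
    exact ht
  by_contra hlt
  rw [not_le] at hlt
  set r := t / x with hr
  have hr0 : 0 ≤ r := div_nonneg ht hx'.le
  have hr1 : r < 1 := (div_lt_one hx').2 hlt
  have hge : ∀ N : ℕ, 1 ≤ ((N : ℝ) + 1) ^ K * r ^ N := by
    intro N
    rw [hr, div_pow, mul_div_assoc', le_div_iff₀ (pow_pos hx' _), one_mul]
    exact (h N).trans_eq (mul_comm _ _)
  have hlim := tendsto_pow_const_mul_const_pow_of_abs_lt_one K (r := r) (by
    rw [abs_of_nonneg hr0]; exact hr1)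
  have hlim' := hlim.comp (Filter.tendsto_add_atTop_nat 1)
  have : r ≤ 0 := by
    refine ge_of_tendsto' hlim' fun N => ?_
    simp only [Function.comp_apply]
    push_cast
    calc r = 1 * r := (one_mul r).symm
      _ ≤ (((N : ℝ) + 1) ^ K * r ^ N) * r := mul_le_mul_of_nonneg_right (hge N) hr0
      _ = ((N : ℝ) + 1) ^ K * r ^ (N + 1) := by rw [pow_succ]; ring
  have hr00 : r = 0 := le_antisymm this hr0
  have := hge 1
  rw [hr00] at this
  norm_num at this

/-- **Reduction to biregular kernels**, with a loss, both sides together. -/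
theorem near_of_bireg2 {E E' : Finset (V × V)} {side side' : V → Bool} {k : ℝ} (hk : 0 ≤ k)
    (hdir : ∀ e ∈ E, side e.1 = false ∧ side e.2 = true)
    (hiso : ∀ v, ∃ e ∈ E, e.1 = v ∨ e.2 = v)
    (hdir' : ∀ e ∈ E', side' e.1 = false ∧ side' e.2 = true)
    (hiso' : ∀ v, ∃ e ∈ E', e.1 = v ∨ e.2 = v) (hB : BiregNear2 E E' side side' k)
    {U : Type} [Fintype U] (m : Bool → U → ℝ) (W : U → U → ℝ) (hm : ∀ b x, 0 ≤ m b x)
    (hm1 : ∀ b, ∑ x, m b x = 1) (hW : ∀ x y, 0 ≤ W x y) (hW1 : ∀ x y, W x y ≤ 1) :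
    kernelMean m W ^ (E.card + E'.card) * kernelMean m W ^ (2 * k) ≤
      H149.dens E side m W * H149.dens E' side' m W := by
  classical
  set p := kernelMean m W with hp
  have hp0 : 0 ≤ p := kp_nonneg hm hW
  have hp1 : p ≤ 1 := kp_le_one hm hm1 hW1
  have hk2 : 0 ≤ 2 * k := by linarith
  have ht0 : 0 ≤ H149.dens E side m W := sum_nonneg fun z _ =>
    mul_nonneg (prod_nonneg fun v _ => hm _ _) (prod_nonneg fun e _ => hW _ _)
  have ht0' : 0 ≤ H149.dens E' side' m W := sum_nonneg fun z _ =>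
    mul_nonneg (prod_nonneg fun v _ => hm _ _) (prod_nonneg fun e _ => hW _ _)
  rcases Nat.eq_zero_or_pos (E.card + E'.card) with hE | hE
  · -- no edges, hence no vertices
    have hE1 : E = ∅ := card_eq_zero.1 (by omega)
    have hE2 : E' = ∅ := card_eq_zero.1 (by omega)
    have hV : IsEmpty V := ⟨fun v => by
      obtain ⟨e, he, _⟩ := hiso v
      rw [hE1] at he
      exact absurd he (notMem_empty _)⟩
    rw [hE, pow_zero, one_mul]
    have h1 : H149.dens E side m W = 1 := by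
      unfold H149.dens
      rw [hE1]
      simp
    have h2 : H149.dens E' side' m W = 1 := by
      unfold H149.dens
      rw [hE2]
      simp
    rw [h1, h2, mul_one]
    exact Real.rpow_le_one hp0 hp1 hk2
  set c := Fintype.card (U × U) with hc
  refine le_of_pow_le (mul_nonneg (pow_nonneg hp0 _) (Real.rpow_nonneg hp0 _))
    (mul_nonneg ht0 ht0') (c * (E.card + E'.card) + c * ⌈2 * k⌉₊) fun N => ?_
  have hsum := sum_qU m W N
  change _ = p ^ N at hsum
  have hne : (univ : Finset (U × U → Fin (N + 1))).Nonempty := univ_nonempty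
  obtain ⟨τ, _, hτ⟩ := exists_le_of_sum_le (s := univ)
    (f := fun _ : U × U → Fin (N + 1) => p ^ N / ((N : ℝ) + 1) ^ Fintype.card (U × U))
    (g := fun τ => qU τ m W) hne (by
      rw [hsum, sum_const, nsmul_eq_mul, card_univ, Fintype.card_fun, Fintype.card_fin]
      push_cast
      have : (0 : ℝ) < ((N : ℝ) + 1) ^ Fintype.card (U × U) := by positivity
      rw [mul_div_cancel₀ _ this.ne'])
  have hτ' : p ^ N / ((N : ℝ) + 1) ^ c ≤ qU τ m W := hτ
  have hx1 : (1 : ℝ) ≤ (N : ℝ) + 1 := by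
    have : (0 : ℝ) ≤ N := Nat.cast_nonneg N
    linarith
  set x : ℝ := ((N : ℝ) + 1) ^ c with hx
  have hpos : (0 : ℝ) < x := by positivity
  have hx1' : 1 ≤ x := one_le_pow₀ hx1
  have hpN : p ^ N ≤ qU τ m W * x := (div_le_iff₀ hpos).1 hτ'
  by_cases hex : ∃ u₀ v₀, ty u₀ v₀ = τ
  · obtain ⟨u₀, v₀, h₀⟩ := hex
    obtain ⟨hq0, h2⟩ := key_near2 hk hdir hiso hdir' hiso' hB m W hm hm1 hW hW1 N h₀
    have e1 : (p ^ (E.card + E'.card) * p ^ (2 * k)) ^ N =
        (p ^ N) ^ (E.card + E'.card) * (p ^ N) ^ (2 * k) := by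
      rw [mul_pow, ← pow_mul, ← pow_mul, mul_comm (E.card + E'.card) N]
      congr 1
      rw [← Real.rpow_natCast (p ^ (2 * k)) N, ← Real.rpow_mul hp0, mul_comm (2 * k),
        Real.rpow_mul hp0, Real.rpow_natCast]
    rw [e1]
    have h3 : (p ^ N) ^ (E.card + E'.card) ≤ (qU τ m W * x) ^ (E.card + E'.card) :=
      pow_le_pow_left₀ (pow_nonneg hp0 _) hpN _
    have h4 : (p ^ N) ^ (2 * k) ≤ (qU τ m W * x) ^ (2 * k) :=
      Real.rpow_le_rpow (pow_nonneg hp0 _) hpN hk2
    have h5 : x ^ (2 * k) ≤ x ^ ⌈2 * k⌉₊ := by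
      rw [← Real.rpow_natCast x ⌈2 * k⌉₊]
      exact Real.rpow_le_rpow_of_exponent_le hx1' (Nat.le_ceil (2 * k))
    calc (p ^ N) ^ (E.card + E'.card) * (p ^ N) ^ (2 * k)
        ≤ (qU τ m W * x) ^ (E.card + E'.card) * (qU τ m W * x) ^ (2 * k) :=
          mul_le_mul h3 h4 (Real.rpow_nonneg (pow_nonneg hp0 _) _)
            (pow_nonneg (mul_nonneg hq0 hpos.le) _)
      _ = (qU τ m W ^ (E.card + E'.card) * qU τ m W ^ (2 * k)) *
            (x ^ (E.card + E'.card) * x ^ (2 * k)) := by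
          rw [mul_pow, Real.mul_rpow hq0 hpos.le]
          ring
      _ ≤ (H149.dens E side m W ^ N * H149.dens E' side' m W ^ N) *
            (x ^ (E.card + E'.card) * x ^ ⌈2 * k⌉₊) := by
          refine mul_le_mul h2 (mul_le_mul_of_nonneg_left h5 (pow_nonneg hpos.le _))
            (mul_nonneg (pow_nonneg hpos.le _) (Real.rpow_nonneg hpos.le _))
            (mul_nonneg (pow_nonneg ht0 _) (pow_nonneg ht0' _))
      _ = _ := by
          rw [hx, ← pow_mul, ← pow_mul, ← pow_add, ← mul_pow]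
  · have hq0 : qU τ m W = 0 := by
      unfold qU
      exact sum_eq_zero fun u _ => sum_eq_zero fun v _ => if_neg fun h => hex ⟨u, v, h⟩
    have h3 : p ^ N = 0 := by
      refine le_antisymm ?_ (pow_nonneg hp0 _)
      rw [hq0, zero_mul] at hpN
      exact hpN
    have e1 : (p ^ (E.card + E'.card) * p ^ (2 * k)) ^ N =
        (p ^ N) ^ (E.card + E'.card) * (p ^ (2 * k)) ^ N := by
      rw [mul_pow, ← pow_mul, ← pow_mul, mul_comm (E.card + E'.card) N]
    rw [e1, h3, zero_pow hE.ne', zero_mul]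
    positivity

end Red2

theorem dir_sideEdges {V : Type} [Fintype V] [DecidableEq V] (H : SimpleGraph V)
    (side : V → Bool) : ∀ e ∈ sideEdges H side, side e.1 = false ∧ side e.2 = true := by
  classical
  intro e he
  exact (mem_filter.1 he).2.2

theorem iso_sideEdges {V : Type} [Fintype V] [DecidableEq V] {H : SimpleGraph V}
    {side : V → Bool} (hs : ∀ u v, H.Adj u v → side u ≠ side v) (hiso : ∀ v, ∃ u, H.Adj v u) :
    ∀ v, ∃ e ∈ sideEdges H side, e.1 = v ∨ e.2 = v := by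
  intro v
  obtain ⟨u, hu⟩ := hiso v
  have h1 := hs v u hu
  cases hv : side v
  · refine ⟨(v, u), ?_, Or.inl rfl⟩
    simp only [sideEdges, mem_filter, mem_univ, true_and]
    refine ⟨hu, hv, ?_⟩
    cases hu' : side u
    · exact absurd (hv.trans hu'.symm) h1
    · rfl
  · refine ⟨(u, v), ?_, Or.inr rfl⟩
    simp only [sideEdges, mem_filter, mem_univ, true_and]
    refine ⟨hu.symm, ?_, hv⟩
    cases hu' : side u
    · rfl
    · exact absurd (hv.trans hu'.symm) h1

open Classical in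
/-- the chain of a biregular kernel -/
theorem chain_le {V : Type} [Fintype V] [DecidableEq V] (H : SimpleGraph V) (side : V → Bool)
    {U : Type} [Fintype U] (m : Bool → U → ℝ) (W : U → U → ℝ) (hm : ∀ b x, 0 ≤ m b x)
    (hW : ∀ x y, 0 ≤ W x y) :
    ∑ z : V → St m, wt H side (stA m W) (fun s => m s.1.1 s.1.2) (fun s => s.1.1) z ≤
      ∑ z : V → U, (∏ v, m (side v) (z v)) * ∏ e ∈ sideEdges H side, W (z e.1) (z e.2) := by
  let G : (V → U) → ℝ := fun z =>
    (∏ v, m (side v) (z v)) * ∏ e ∈ sideEdges H side, W (z e.1) (z e.2)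
  let φ : (V → St m) → (V → U) := fun z v => (z v).1.2
  have hG : ∀ z, 0 ≤ G z := fun z =>
    mul_nonneg (Finset.prod_nonneg fun _ _ => hm _ _) (Finset.prod_nonneg fun _ _ => hW _ _)
  have h1 : ∑ z : V → St m, wt H side (stA m W) (fun s => m s.1.1 s.1.2) (fun s => s.1.1) z =
      ∑ z ∈ univ.filter (fun z : V → St m => ∀ v, (z v).1.1 = side v), G (φ z) := by
    rw [Finset.sum_filter]
    refine Finset.sum_congr rfl fun z _ => ?_
    unfold Ears.wt
    split_ifs with hz
    swap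
    · rfl
    congr 1
    · refine Finset.prod_congr rfl fun v _ => ?_
      rw [← hz v]
    · refine Finset.prod_congr rfl fun e he => ?_
      have he' := (mem_filter.1 he).2
      have z1 : (z e.1).1.1 = false := (hz e.1).trans he'.2.1
      have z2 : (z e.2).1.1 = true := (hz e.2).trans he'.2.2
      simp only [stA]
      rw [if_pos z1, if_pos z2, mul_div_assoc, div_self (z e.2).2, mul_one]
  rw [h1]
  have hinj : Set.InjOn φ ↑(univ.filter (fun z : V → St m => ∀ v, (z v).1.1 = side v)) := by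
    intro z hz z' hz' hzz
    have a1 := (mem_filter.1 (Finset.mem_coe.1 hz)).2
    have a2 := (mem_filter.1 (Finset.mem_coe.1 hz')).2
    funext v
    apply Subtype.ext
    exact Prod.ext ((a1 v).trans (a2 v).symm) (congrFun hzz v)
  rw [← Finset.sum_image hinj]
  exact Finset.sum_le_sum_of_subset_of_nonneg (Finset.subset_univ _) fun z _ _ => hG z

theorem wt_nonneg' {V S : Type} [Fintype V] [DecidableEq V] [Fintype S] {A : Matrix S S ℝ}
    {μ : S → ℝ} {c : S → Bool} (h : Rev A μ c) (H : SimpleGraph V) (side : V → Bool)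
    (z : V → S) : 0 ≤ wt H side A μ c z := by
  unfold Ears.wt
  split_ifs
  · exact mul_nonneg (Finset.prod_nonneg fun _ _ => (h.pos _).le)
      (Finset.prod_nonneg fun _ _ => div_nonneg (h.nonneg _ _) (h.pos _).le)
  · exact le_rfl

open Classical in
/-- The inequality with a loss for reversible chains, both sides together, implies the inequality
for biregular weighted kernels. -/
theorem biregNear2_of_rev {V : Type} [Fintype V] [DecidableEq V] (H : SimpleGraph V)
    (side : V → Bool) (k : ℝ)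
    (h : ∀ (S : Type) [Fintype S] [DecidableEq S] [Nonempty S] (A : Matrix S S ℝ) (μ : S → ℝ)
      (c : S → Bool), Rev A μ c → ∀ δ : ℝ, 0 < δ → δ ≤ 1 → (∀ u v, A u v * δ ≤ μ v) →
        δ ^ (2 * k) ≤ (∑ z : V → S, wt H side A μ c z) *
          ∑ z : V → S, wt H (fun v => !side v) A μ c z) :
    BiregNear2 (sideEdges H side) (sideEdges H fun v => !side v) side (fun v => !side v) k := by
  intro U _ m W hm hm1 hW hr hc δ hδ hδ1 hWδ
  have hrev := st_rev m W hm hm1 hW hr hc
  have hne : Nonempty (St m) := by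
    have h1 : ∃ x, m false x ≠ 0 := by
      by_contra hcon
      push Not at hcon
      have := hm1 false
      simp [hcon] at this
    obtain ⟨x, hx⟩ := h1
    exact ⟨⟨(false, x), hx⟩⟩
  refine (h (St m) _ _ _ hrev δ hδ hδ1 ?_).trans ?_
  · intro u v
    have key : ∀ x y, W x y * m v.1.1 v.1.2 * δ ≤ m v.1.1 v.1.2 := fun x y => by
      calc W x y * m v.1.1 v.1.2 * δ = m v.1.1 v.1.2 * (W x y * δ) := by ring
        _ ≤ m v.1.1 v.1.2 := mul_le_of_le_one_right (hm _ _) (hWδ x y)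
    unfold stA
    split_ifs
    · exact key _ _
    · rw [zero_mul]
      exact hm _ _
    · exact key _ _
    · rw [zero_mul]
      exact hm _ _
  · refine mul_le_mul (chain_le H side m W hm hW) (chain_le H _ m W hm hW)
      (Finset.sum_nonneg fun z _ => wt_nonneg' hrev H _ z) ?_
    exact Finset.sum_nonneg fun z _ => mul_nonneg (Finset.prod_nonneg fun _ _ => hm _ _)
      (Finset.prod_nonneg fun _ _ => hW _ _)

/-- NEAR STEP, both sides together: the target graph is symmetric, so the two sides of `H` may be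
exchanged. -/
theorem near_of_rev2 {V : Type} [Fintype V] [DecidableEq V] (H : SimpleGraph V) (side : V → Bool)
    (hs : ∀ u v, H.Adj u v → side u ≠ side v) (hiso : ∀ v, ∃ u, H.Adj v u) (k : ℝ) (hk : 0 ≤ k)
    (h : ∀ (S : Type) [Fintype S] [DecidableEq S] [Nonempty S] (A : Matrix S S ℝ) (μ : S → ℝ)
      (c : S → Bool), Rev A μ c → ∀ δ : ℝ, 0 < δ → δ ≤ 1 → (∀ u v, A u v * δ ≤ μ v) →
        δ ^ (2 * k) ≤ (∑ z : V → S, wt H side A μ c z) *
          ∑ z : V → S, wt H (fun v => !side v) A μ c z) :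
    ∀ H₀ : SimpleGraph V, H₀ ≤ H → ∀ (U : Type) [Finite U] [Nonempty U] (G : SimpleGraph U),
      edgeDensity G ^ ((Nat.card H.edgeSet : ℝ) + k) ≤ homDensity H₀ G := by
  classical
  intro H₀ hH₀ U _ _ G
  refine le_trans ?_ (homDensity_anti hH₀ G)
  obtain ⟨n, m, W, hm, hm1, hW, hW1, hp, ht⟩ := exists_kernel G
  have hs' : ∀ u v, H.Adj u v → (fun v => !side v) u ≠ (fun v => !side v) v := by
    intro u v huv h1
    exact hs u v huv (by
      have h2 : (!side u) = !side v := h1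
      simpa using h2)
  have hB := biregNear2_of_rev H side k h
  have h1 := near_of_bireg2 hk (dir_sideEdges H side) (iso_sideEdges hs hiso)
    (dir_sideEdges H _) (iso_sideEdges hs' hiso) hB m W hm hm1 hW hW1
  have h2 : H149.dens (sideEdges H side) side m W = homDensity H G := ht V H side hs
  have h3 : H149.dens (sideEdges H fun v => !side v) (fun v => !side v) m W =
      homDensity H G := ht V H _ hs'
  rw [h2, h3, hp, card_sideEdges H side hs, card_sideEdges H _ hs'] at h1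
  have h0 : 0 ≤ edgeDensity G := by
    unfold edgeDensity
    positivity
  have ht0 : 0 ≤ homDensity H G := by
    unfold homDensity
    positivity
  have e1 : edgeDensity G ^ ((Nat.card H.edgeSet : ℝ) + k) =
      edgeDensity G ^ Nat.card H.edgeSet * edgeDensity G ^ k := by
    rw [Real.rpow_add_of_nonneg h0 (Nat.cast_nonneg _) hk, Real.rpow_natCast]
  rw [e1]
  have h4 : (edgeDensity G ^ Nat.card H.edgeSet * edgeDensity G ^ k) ^ 2 ≤
      homDensity H G ^ 2 := by
    refine le_trans (le_of_eq ?_) (h1.trans_eq (pow_two _).symm)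
    rw [mul_pow, ← pow_mul, mul_two]
    congr 1
    rw [← Real.rpow_natCast (edgeDensity G ^ k) 2, ← Real.rpow_mul h0]
    congr 1
    push_cast
    ring
  exact (pow_le_pow_iff_left₀ (mul_nonneg (pow_nonneg h0 _) (Real.rpow_nonneg h0 _)) ht0
    two_ne_zero).1 h4

end Vale.Agent.P050.Books
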