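import Vale.Agent.P050.R4.H22.Hub2

/-!
# P050: several new vertices at once, with the law of the exact partition function
-/

set_option linter.unusedSectionVars false

namespace Vale.Agent.P050.Books

open Finset Vale.Agent.P050.Lev Vale.Agent.P050.Ears

section Block

variable {V S : Type} [Fintype V] [DecidableEq V] [Fintype S]
  {side : V → Bool} {A : Matrix S S ℝ} {μ : S → ℝ} {c : S → Bool}

/-- averages of functions of the old coordinates do not change -/
theorem persist_block {U : Finset V} {ρ Wt Ψ : (V → S) → ℝ}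
    (hρ : DepOn U ρ) (hΨ : DepOn U Ψ)
    (hint : ∀ f : (V → S) → ℝ, DepOn U f →
      EM side μ c (fun z => f z * Wt z) = EM side μ c (fun z => f z * Ψ z))
    (hpos : ∀ z, (∏ v, mm side μ c v (z v)) ≠ 0 → ρ z ≠ 0 → 0 < Ψ z)
    {f : (V → S) → ℝ} (hf : DepOn U f) :
    EM side μ c (fun z => ρ z * (Wt z * (Ψ z)⁻¹) * f z) = EM side μ c (fun z => ρ z * f z) := by
  have hdep : DepOn U (fun z => ρ z * (Ψ z)⁻¹ * f z) := by
    intro z z' hz
    show ρ z * (Ψ z)⁻¹ * f z = ρ z' * (Ψ z')⁻¹ * f z'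
    rw [hρ z z' hz, hΨ z z' hz, hf z z' hz]
  have e1 : EM side μ c (fun z => ρ z * (Wt z * (Ψ z)⁻¹) * f z) =
      EM side μ c (fun z => (ρ z * (Ψ z)⁻¹ * f z) * Wt z) := EM_congr fun z _ => by ring
  rw [e1, hint _ hdep]
  refine EM_congr fun z hz => ?_
  by_cases h0 : ρ z = 0
  · rw [h0]
    ring
  · have := (hpos z hz h0).ne'
    field_simp

/-- several new vertices -/
theorem Law.block (h : Rev A μ c) {H : SimpleGraph V} {U U' : Finset V}
    {ρ L Wt Ψ : (V → S) → ℝ} (hl : Law H side A μ c U ρ L) (hU : U ⊆ U')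
    (hWt : DepOn U' Wt) (hW0 : ∀ z, 0 ≤ Wt z) (hΨ : DepOn U Ψ) (hΨ0 : ∀ z, 0 ≤ Ψ z)
    (hedge : ∀ z, edgeW H side A μ U' z = edgeW H side A μ U z * Wt z)
    (hint : ∀ f : (V → S) → ℝ, DepOn U f →
      EM side μ c (fun z => f z * Wt z) = EM side μ c (fun z => f z * Ψ z))
    (hpos : ∀ z, (∏ v, mm side μ c v (z v)) ≠ 0 → ρ z ≠ 0 → 0 < Ψ z)
    (hlog : 0 ≤ EM side μ c (fun z => ρ z * Real.log (Ψ z))) :
    Law H side A μ c U' (fun z => ρ z * (Wt z * (Ψ z)⁻¹)) (fun z => L z * Ψ z) := by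
  refine ⟨?_, ?_, ?_, ?_, ?_, ?_, ?_⟩
  · intro z z' hz
    show ρ z * (Wt z * (Ψ z)⁻¹) = ρ z' * (Wt z' * (Ψ z')⁻¹)
    rw [hl.dep z z' fun u hu => hz u (hU hu), hWt z z' hz, hΨ z z' fun u hu => hz u (hU hu)]
  · exact (hl.depL.mono hU).mul (hΨ.mono hU)
  · exact fun z => mul_nonneg (hl.nonneg z) (mul_nonneg (hW0 z) (inv_nonneg.2 (hΨ0 z)))
  · intro z hz
    rw [hedge, ← hl.mul z hz]
    by_cases h0 : ρ z = 0
    · rw [h0]
      ring
    · have hq := (hpos z hz h0).ne'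
      field_simp
  · intro z hz h0
    exact mul_pos (hl.pos z hz (left_ne_zero_of_mul h0)) (hpos z hz (left_ne_zero_of_mul h0))
  · have := persist_block hl.dep hΨ hint hpos (f := fun _ => (1 : ℝ)) (fun _ _ _ => rfl)
    simp only [mul_one] at this
    rw [this]
    exact hl.one
  · have hlogs : DepOn U (fun z : V → S => Real.log (L z) + Real.log (Ψ z)) := by
      intro z z' hz
      show Real.log (L z) + Real.log (Ψ z) = Real.log (L z') + Real.log (Ψ z')
      rw [hl.depL z z' hz, hΨ z z' hz]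
    have e1 : EM side μ c (fun z => ρ z * (Wt z * (Ψ z)⁻¹) * Real.log (L z * Ψ z)) =
        EM side μ c (fun z => ρ z * (Wt z * (Ψ z)⁻¹) *
          (Real.log (L z) + Real.log (Ψ z))) := by
      refine EM_congr fun z hz => ?_
      by_cases h0 : ρ z = 0
      · rw [h0]
        ring
      · rw [Real.log_mul (hl.pos z hz h0).ne' (hpos z hz h0).ne']
    rw [e1, persist_block hl.dep hΨ hint hpos hlogs]
    have e2 : EM side μ c (fun z => ρ z * (Real.log (L z) + Real.log (Ψ z))) =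
        EM side μ c (fun z => ρ z * Real.log (L z)) +
          EM side μ c (fun z => ρ z * Real.log (Ψ z)) := by
      rw [← EM_add]
      exact EM_congr fun z _ => mul_add _ _ _
    rw [e2]
    exact add_nonneg hl.log hlog

/-- relative entropies of old coordinates depend only on their law -/
theorem DD_of_law (h : Rev A μ c) {U W : Finset V} {ρ ρ' : (V → S) → ℝ} (hW : W ⊆ U)
    (hlaw : ∀ f : (V → S) → ℝ, DepOn U f →
      EM side μ c (fun z => ρ' z * f z) = EM side μ c (fun z => ρ z * f z)) :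
    DD side μ c ρ' W = DD side μ c ρ W := by
  have h1 : DD side μ c ρ' W =
      EM side μ c (fun z => ρ' z * Real.log (marg side μ c ρ W z)) :=
    DD_eq (side := side) h (depOn_marg ρ W) fun f hf => by
      rw [hlaw f (hf.mono hW), marg_law h ρ hf]
  rw [h1, hlaw (fun z => Real.log (marg side μ c ρ W z))]
  · rfl
  · intro z z' hz
    show Real.log (marg side μ c ρ W z) = Real.log (marg side μ c ρ W z')
    rw [depOn_marg ρ W z z' fun u hu => hz u (hW hu)]

/-- a fan is kept -/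
theorem IsFan.of_law (h : Rev A μ c) {U U' : Finset V} {ρ ρ' : (V → S) → ℝ} (hU : U ⊆ U')
    (hlaw : ∀ f : (V → S) → ℝ, DepOn U f →
      EM side μ c (fun z => ρ' z * f z) = EM side μ c (fun z => ρ z * f z))
    (hsup : ∀ z, ρ' z ≠ 0 → ρ z ≠ 0)
    {A₀ Z : Finset V} {Q : V → Finset V} (hf : IsFan side A μ c U ρ A₀ Z Q) :
    IsFan side A μ c U' ρ' A₀ Z Q := by
  have hMM : ∀ P : Finset V, P ⊆ U → MM side A μ c ρ' P = MM side A μ c ρ P := by
    intro P hP
    exact hlaw (fun z => Real.log (hQ A μ P z)) (by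
      intro z z' hz
      show Real.log (hQ A μ P z) = Real.log (hQ A μ P z')
      rw [depOn_hQ P z z' fun u hu => hz u (hP hu)])
  have hee : ∀ i j : V, i ∈ U → j ∈ U → ee side A μ c ρ' i j = ee side A μ c ρ i j := by
    intro i j hi hj
    exact hlaw (fun z => Real.log (kk A μ (z i) (z j))) (by
      intro z z' hz
      show Real.log (kk A μ (z i) (z j)) = Real.log (kk A μ (z' i) (z' j))
      rw [hz i hi, hz j hj])
  have hA₀U : A₀ ⊆ U := Finset.subset_union_left.trans hf.sub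
  have hZU : Z ⊆ U := Finset.subset_union_right.trans hf.sub
  refine ⟨hf.sub.trans hU, hf.qs, hf.qn, hf.sd, hf.hub,
    fun z hz h0 => hf.kp z hz (hsup z h0), ?_, ?_⟩
  · intro P hP hPn
    rw [hMM P (hP.trans hA₀U), DD_of_law h (hP.trans hA₀U) hlaw]
    exact hf.star P hP hPn
  · intro T hT R' hR' hQT
    have hTU : T ⊆ U := hT.trans hA₀U
    have hRU : R' ⊆ U := hR'.trans hZU
    rw [DD_of_law h (Finset.union_subset hTU hRU) hlaw, DD_of_law h hTU hlaw,
      hf.fan T hT R' hR' hQT]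
    congr 1
    refine Finset.sum_congr rfl fun u hu => ?_
    have hQU : Q u ⊆ U := (hQT u hu).trans hTU
    rw [hMM (Q u) hQU]
    congr 1
    exact Finset.sum_congr rfl fun j hj => (hee j u (hQU hj) (hRU hu)).symm

/-- GIBBS: the mean logarithm of a partition function over the states of one vertex -/
theorem DD_gibbs (h : Rev A μ c) {ρ : (V → S) → ℝ} (hρ : ∀ z, 0 ≤ ρ z)
    (hone : EM side μ c ρ = 1) {W : Finset V} {a : V} (ha : a ∉ W)
    {Θ Ψ : (V → S) → ℝ} (hΘ : DepOn (insert a W) Θ) (hΘ0 : ∀ z, 0 ≤ Θ z)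
    (hΘp : ∀ z, (∏ v, mm side μ c v (z v)) ≠ 0 → ρ z ≠ 0 → 0 < Θ z)
    (hΨ : ∀ z, (∏ v, mm side μ c v (z v)) ≠ 0 →
      ∑ x, mm side μ c a x * Θ (Function.update z a x) = Ψ z)
    (hΨd : DepOn W Ψ) (hΨ0 : ∀ z, 0 ≤ Ψ z) :
    (∀ z, (∏ v, mm side μ c v (z v)) ≠ 0 → ρ z ≠ 0 → 0 < Ψ z) ∧
    DD side μ c ρ W + EM side μ c (fun z => ρ z * Real.log (Θ z)) ≤
      DD side μ c ρ (insert a W) + EM side μ c (fun z => ρ z * Real.log (Ψ z)) := by
  have hΨp : ∀ z, (∏ v, mm side μ c v (z v)) ≠ 0 → ρ z ≠ 0 → 0 < Ψ z := by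
    intro z hz h0
    rw [← hΨ z hz]
    have h1 : mm side μ c a (z a) * Θ (Function.update z a (z a)) ≤
        ∑ x, mm side μ c a x * Θ (Function.update z a x) :=
      Finset.single_le_sum (f := fun x => mm side μ c a x * Θ (Function.update z a x))
        (fun y _ => mul_nonneg (mm_nonneg h _ _) (hΘ0 _)) (mem_univ (z a))
    refine lt_of_lt_of_le (mul_pos ?_ ?_) h1
    · refine lt_of_le_of_ne (mm_nonneg h _ _) (Ne.symm fun h2 => hz ?_)
      exact Finset.prod_eq_zero (mem_univ a) h2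
    · rw [Function.update_eq_self]
      exact hΘp z hz h0
  refine ⟨hΨp, ?_⟩
  let m := marg side μ c ρ (insert a W)
  let χ := marg side μ c ρ W
  let φ : (V → S) → ℝ := fun z => χ z * (Θ z * (Ψ z)⁻¹ * (m z)⁻¹)
  have hm0 : ∀ z, 0 ≤ m z := marg_nonneg h hρ _
  have hχ0 : ∀ z, 0 ≤ χ z := marg_nonneg h hρ _
  have hφdep : DepOn (insert a W) φ := by
    intro z z' hz
    have e1 : χ z = χ z' := depOn_marg ρ W z z' fun u hu => hz u (mem_insert_of_mem hu)
    have e2 : m z = m z' := depOn_marg ρ (insert a W) z z' hz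
    show χ z * (Θ z * (Ψ z)⁻¹ * (m z)⁻¹) = χ z' * (Θ z' * (Ψ z')⁻¹ * (m z')⁻¹)
    rw [e1, e2, hΘ z z' hz, hΨd z z' fun u hu => hz u (mem_insert_of_mem hu)]
  have hφpos : ∀ z, (∏ v, mm side μ c v (z v)) ≠ 0 → ρ z ≠ 0 → 0 < φ z := fun z hz h0 =>
    mul_pos (marg_pos h hρ W hz h0) (mul_pos (mul_pos (hΘp z hz h0) (inv_pos.2 (hΨp z hz h0)))
      (inv_pos.2 (marg_pos h hρ _ hz h0)))
  have h1 : EM side μ c (fun z => ρ z * φ z) ≤ 1 := by
    rw [marg_law h ρ hφdep]
    have e1 : EM side μ c (fun z => marg side μ c ρ (insert a W) z * φ z) ≤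
        EM side μ c (fun z => (χ z * (Ψ z)⁻¹) * Θ z) := by
      refine EM_mono h fun z _ => ?_
      have he : marg side μ c ρ (insert a W) z * φ z = ((χ z * (Ψ z)⁻¹) * Θ z) *
          (m z * (m z)⁻¹) := by
        show m z * (χ z * (Θ z * (Ψ z)⁻¹ * (m z)⁻¹)) = _
        ring
      rw [he]
      exact mul_le_of_le_one_right (mul_nonneg (mul_nonneg (hχ0 z) (inv_nonneg.2 (hΨ0 z)))
        (hΘ0 z)) mul_inv_le_one
    refine e1.trans ?_
    have hdep : DepOn W (fun z => χ z * (Ψ z)⁻¹) := by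
      intro z z' hz
      show χ z * (Ψ z)⁻¹ = χ z' * (Ψ z')⁻¹
      rw [show χ z = χ z' from depOn_marg ρ W z z' hz, hΨd z z' hz]
    rw [EM_push h ha hdep Θ, ← EM_marg (side := side) h hone W]
    refine EM_mono h fun z hz => ?_
    rw [hΨ z hz]
    have e2 : χ z * (Ψ z)⁻¹ * Ψ z = χ z * (Ψ z * (Ψ z)⁻¹) := by ring
    rw [e2]
    exact mul_le_of_le_one_right (hχ0 z) mul_inv_le_one
  have h2 := log_nonneg_of (side := side) h hρ hone hφpos h1
  have h3 : EM side μ c (fun z => ρ z * Real.log (φ z)) =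
      (DD side μ c ρ W + EM side μ c (fun z => ρ z * Real.log (Θ z))) -
        (DD side μ c ρ (insert a W) + EM side μ c (fun z => ρ z * Real.log (Ψ z))) := by
    unfold DD
    rw [← EM_add, ← EM_add, ← EM_sub]
    refine EM_congr fun z hz => ?_
    by_cases h0 : ρ z = 0
    · rw [h0]
      ring
    · have p1 : 0 < χ z := marg_pos h hρ W hz h0
      have p2 := hΘp z hz h0
      have p3 : 0 < m z := marg_pos h hρ _ hz h0
      have p4 := hΨp z hz h0
      show ρ z * Real.log (χ z * (Θ z * (Ψ z)⁻¹ * (m z)⁻¹)) =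
        (ρ z * Real.log (χ z) + ρ z * Real.log (Θ z)) -
          (ρ z * Real.log (m z) + ρ z * Real.log (Ψ z))
      rw [Real.log_mul p1.ne' (mul_pos (mul_pos p2 (inv_pos.2 p4)) (inv_pos.2 p3)).ne',
        Real.log_mul (mul_pos p2 (inv_pos.2 p4)).ne' (inv_pos.2 p3).ne',
        Real.log_mul p2.ne' (inv_pos.2 p4).ne', Real.log_inv, Real.log_inv]
      ring
  rw [h3] at h2
  linarith

end Block

end Vale.Agent.P050.Books
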