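import Vale.Agent.P050.R5.H557.Priv
import Vale.Agent.P050.R4.H22.Fin2

/-!
# P050: graphs with a hub and private vertices
-/

set_option linter.unusedSectionVars false

namespace Vale.Agent.P050.Books

open Finset Vale.Agent.P050.Lev Vale.Agent.P050.Ears

section Main

variable {V S : Type} [Fintype V] [DecidableEq V] [Fintype S]
  {side : V → Bool} {A : Matrix S S ℝ} {μ : S → ℝ} {c : S → Bool}

omit [Fintype V] in
theorem depOn_Wp {U R N : Finset V} {Q : V → Finset V} {w : V} (hR : R ⊆ U)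
    (hQ : ∀ j ∈ N, Q j ⊆ U) : DepOn (insert w U ∪ N) (Wp A μ R N Q w) := by
  intro z z' hz
  have h1 : ∀ u ∈ insert w U, z u = z' u := fun u hu => hz u (mem_union_left _ hu)
  unfold Wp
  congr 1
  · exact Finset.prod_congr rfl fun u hu => by
      rw [h1 u (mem_insert_of_mem (hR hu)), h1 w (mem_insert_self _ _)]
  · refine Finset.prod_congr rfl fun j hj => Finset.prod_congr rfl fun i hi => ?_
    rw [h1 i (Finset.insert_subset_insert w (hQ j hj) hi), hz j (mem_union_right _ hj)]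

/-- the edges of a block -/
theorem edgeW_block (h : Rev A μ c) {H : SimpleGraph V}
    (hs : ∀ u v, H.Adj u v → side u ≠ side v) {U R : Finset V} {w : V} (hw : w ∉ U)
    (hRU : R ⊆ U) (hR : ∀ x ∈ U, H.Adj w x ↔ x ∈ R) {Q : V → Finset V} (N : Finset V)
    (hN : ∀ j ∈ N, j ∉ insert w U) (hQ : ∀ j ∈ N, Q j ⊆ U)
    (hjw : ∀ j ∈ N, H.Adj j w) (hj : ∀ j ∈ N, ∀ x ∈ U, H.Adj j x ↔ x ∈ Q j)
    (hjj : ∀ j ∈ N, ∀ k ∈ N, ¬ H.Adj j k) (z : V → S) :
    edgeW H side A μ (insert w U ∪ N) z = edgeW H side A μ U z * Wp A μ R N Q w z := by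
  induction N using Finset.induction_on with
  | empty =>
    rw [Finset.union_empty, edgeW_insert h hs hw hRU hR]
    unfold Wp
    rw [Finset.prod_empty, mul_one]
  | insert j N hjN ih =>
    have hjm : j ∈ insert j N := mem_insert_self _ _
    have h1 := ih (fun k hk => hN k (mem_insert_of_mem hk))
      (fun k hk => hQ k (mem_insert_of_mem hk)) (fun k hk => hjw k (mem_insert_of_mem hk))
      (fun k hk => hj k (mem_insert_of_mem hk))
      (fun k hk l hl => hjj k (mem_insert_of_mem hk) l (mem_insert_of_mem hl))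
    have h2 : j ∉ insert w U ∪ N := by
      rw [mem_union, not_or]
      exact ⟨hN j hjm, hjN⟩
    have h3 : insert w (Q j) ⊆ insert w U ∪ N :=
      (Finset.insert_subset_insert w (hQ j hjm)).trans Finset.subset_union_left
    have h4 : ∀ x ∈ insert w U ∪ N, H.Adj j x ↔ x ∈ insert w (Q j) := by
      intro x hx
      rcases mem_union.1 hx with hx | hx
      · rcases mem_insert.1 hx with rfl | hx1
        · exact ⟨fun _ => mem_insert_self _ _, fun _ => hjw j hjm⟩
        · rw [hj j hjm x hx1, mem_insert]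
          refine ⟨Or.inr, ?_⟩
          rintro (h6 | h5)
          · exact absurd (h6 ▸ hx1) hw
          · exact h5
      · constructor
        · intro h5
          exact absurd h5 (hjj j hjm x (mem_insert_of_mem hx))
        · intro h5
          exfalso
          have h6 := hN x (mem_insert_of_mem hx)
          exact h6 (Finset.insert_subset_insert w (hQ j hjm) h5)
    rw [Finset.union_insert, edgeW_insert h hs h2 h3 h4, h1]
    unfold Wp
    rw [Finset.prod_insert hjN]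
    ring

theorem bool_eq_of_ne : ∀ {x y z : Bool}, x ≠ z → y ≠ z → x = y := by decide

/-- the step, combinatorial conditions only -/
theorem block_step (h : Rev A μ c) {H : SimpleGraph V}
    (hs : ∀ u v, H.Adj u v → side u ≠ side v) {b w a r : V} {A₀ Z U R N : Finset V}
    {ρ L : (V → S) → ℝ} (hl : Law H side A μ c U ρ L)
    (hf : IsFan side A μ c U ρ A₀ (insert b Z) (tr H A₀)) (hAU : A₀ ⊆ U)
    (hsA : ∀ x ∈ A₀, side x ≠ side b) (hws : side w ≠ side b)
    (hwr : H.Adj w r) (ha : a ∈ A₀)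
    (hdom : ∀ u, H.Adj w u → ∀ x ∈ A₀, H.Adj u x → x = a ∨ H.Adj r x)
    (hmR : ∀ u, u ∈ R ↔ H.Adj w u ∧ H.Adj u a) (hmN : ∀ u, u ∈ N ↔ H.Adj w u ∧ ¬ H.Adj u a)
    (hwU : w ∉ U) (hNs : ∀ j ∈ N, side j = side b) (hNp : ∀ j ∈ N, ∀ x, H.Adj j x → x ∈ A₀ ∨ x = w)
    (hNU : ∀ j ∈ N, j ∉ insert w U) (hRZ : R ⊆ insert b Z) (hRU : R ⊆ U) :
    ∃ ρ L : (V → S) → ℝ, Law H side A μ c (insert w U ∪ N) ρ L ∧
      IsFan side A μ c (insert w U ∪ N) ρ A₀ (insert b Z) (tr H A₀) := by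
  have hR : ∀ x ∈ U, H.Adj w x ↔ x ∈ R := by
    intro x hx
    rw [hmR]
    refine ⟨fun h1 => ⟨h1, ?_⟩, fun h1 => h1.1⟩
    by_contra h2
    exact hNU x ((hmN x).2 ⟨h1, h2⟩) (mem_insert_of_mem hx)
  have hQA : ∀ j, tr H A₀ j ⊆ A₀ := fun j i hi => (mem_tr.1 hi).1
  have hQU : ∀ j ∈ N, tr H A₀ j ⊆ U := fun j _ => (hQA j).trans hAU
  have hjU : ∀ j ∈ N, ∀ x ∈ U, H.Adj j x ↔ x ∈ tr H A₀ j := by
    intro j hj x hx
    rw [mem_tr]
    refine ⟨fun h1 => ⟨?_, h1⟩, fun h1 => h1.2⟩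
    rcases hNp j hj x h1 with h2 | h2
    · exact h2
    · exact absurd (h2 ▸ hx) hwU
  have hedge : ∀ z : V → S, edgeW H side A μ (insert w U ∪ N) z =
      edgeW H side A μ U z * Wp A μ R N (tr H A₀) w z :=
    edgeW_block h hs hwU hRU hR N hNU hQU
      (fun j hj => ((hmN j).1 hj).1.symm) hjU
      (fun j hj k hk hjk => hs _ _ hjk ((hNs j hj).trans (hNs k hk).symm))
  have hwa : side w = side a := bool_eq_of_ne hws (hsA a ha)
  have hint : ∀ f : (V → S) → ℝ, DepOn U f →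
      EM side μ c (fun z => f z * Wp A μ R N (tr H A₀) w z) =
        EM side μ c (fun z => f z * Ps side A μ c R N (tr H A₀) a z) :=
    fun f hf => EM_Wp h hwU hRU hQU hNU
      (fun j hj => fun e => hws (e.trans (hNs j hj)))
      (fun j hj i hi => by
        rw [hNs j hj]
        exact hsA i (hQA j hi)) hwa hf
  have htop := hf.top_priv h hl.nonneg hl.one (R := R) (N := N)
    (P := (tr H A₀ r).erase a) (a := a) (Q' := tr H A₀) hRZ ha
    ((Finset.erase_subset _ _).trans (hQA _)) (Finset.notMem_erase _ _)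
    (fun u hu => mem_tr.2 ⟨ha, ((hmR u).1 hu).2⟩)
    (by
      intro u hu x hx
      obtain ⟨h1, h2⟩ := Finset.mem_erase.1 hx
      obtain ⟨h3, h4⟩ := mem_tr.1 h2
      refine Finset.mem_erase.2 ⟨h1, mem_tr.2 ⟨h3, ?_⟩⟩
      rcases hdom u ((hmR u).1 hu).1 x h3 h4 with h5 | h5
      · exact absurd h5 h1
      · exact h5)
    (by
      intro j hj x hx
      obtain ⟨h5, h6⟩ := (hmN j).1 hj
      obtain ⟨h3, h4⟩ := mem_tr.1 hx
      have h1 : x ≠ a := by
        rintro rfl
        exact h6 h4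
      refine Finset.mem_erase.2 ⟨h1, mem_tr.2 ⟨h3, ?_⟩⟩
      rcases hdom j h5 x h3 h4 with h7 | h7
      · exact absurd h7 h1
      · exact h7)
    (by
      by_cases h1 : H.Adj r a
      · exact Or.inl ⟨r, (hmR _).2 ⟨hwr, h1⟩, rfl⟩
      · refine Or.inr ⟨r, (hmN _).2 ⟨hwr, h1⟩, ?_⟩
        rw [Finset.erase_eq_of_notMem]
        exact fun hm => h1 (mem_tr.1 hm).2)
  have hΨ : DepOn U (Ps side A μ c R N (tr H A₀) a) := depOn_Ps hRU hQU
  have hUU : U ⊆ insert w U ∪ N := (Finset.subset_insert _ _).trans Finset.subset_union_left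
  exact ⟨_, _, hl.block h hUU (depOn_Wp hRU hQU) (Wp_nonneg h R N (tr H A₀) w) hΨ
    (Ps_nonneg h R N (tr H A₀) a) hedge hint htop.1 htop.2,
    hf.of_law h hUU (fun f hf' => persist_block hl.dep hΨ hint htop.1 hf')
    (fun z hz0 => left_ne_zero_of_mul hz0)⟩

/-- the law of the whole graph -/
theorem priv_law (h : Rev A μ c) {H : SimpleGraph V}
    (hs : ∀ u v, H.Adj u v → side u ≠ side v) {b : V} {A₀ : Finset V} (hA : A₀.Nonempty)
    (hb : ∀ a ∈ A₀, H.Adj b a) (hz : ∀ z, side z = side b → ∃ a ∈ A₀, H.Adj z a)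
    (r a : V → V) (hw : ∀ w, side w ≠ side b → w ∉ A₀ → H.Adj w (r w) ∧ a w ∈ A₀ ∧
      ∀ u, H.Adj w u → (H.Adj u (a w) ∨ ∀ x, H.Adj u x → x ∈ A₀ ∨ x = w) ∧
        ∀ x ∈ A₀, H.Adj u x → x = a w ∨ H.Adj (r w) x) :
    ∃ ρ L : (V → S) → ℝ, Law H side A μ c univ ρ L := by
  classical
  let Z : Finset V := univ.filter fun z => z ≠ b ∧ side z = side b ∧
    ∀ w, side w ≠ side b → w ∉ A₀ → H.Adj w z → H.Adj z (a w)
  let N : V → Finset V := fun w => univ.filter fun u => H.Adj w u ∧ ¬ H.Adj u (a w)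
  have hsN : ∀ w, side w ≠ side b → ∀ u, H.Adj w u → side u = side b := by
    intro w h1 u h2
    exact bool_eq_of_ne (hs _ _ h2).symm h1.symm
  have hsA : ∀ x ∈ A₀, side x ≠ side b := fun x hx => (hs _ _ (hb x hx)).symm
  have key : ∀ W : Finset V, (∀ w ∈ W, side w ≠ side b ∧ w ∉ A₀) →
      ∃ ρ L : (V → S) → ℝ, Law H side A μ c (insert b A₀ ∪ Z ∪ W ∪ W.biUnion N) ρ L ∧
      IsFan side A μ c (insert b A₀ ∪ Z ∪ W ∪ W.biUnion N) ρ A₀ (insert b Z) (tr H A₀) := by
    intro W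
    induction W using Finset.induction_on with
    | empty =>
      intro _
      rw [Finset.biUnion_empty, Finset.union_empty, Finset.union_empty]
      refine fan_law h hs hA hb Z fun z hzZ => ?_
      obtain ⟨-, h1, h2, -⟩ := mem_filter.1 hzZ
      obtain ⟨a', ha, hza⟩ := hz z h2
      exact ⟨h1, h2, a', mem_tr.2 ⟨ha, hza⟩⟩
    | insert w W hwW ih =>
      intro hW
      obtain ⟨ρ, L, hl, hf⟩ := ih fun x hx => hW x (mem_insert_of_mem hx)
      obtain ⟨hws, hwA⟩ := hW w (mem_insert_self _ _)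
      obtain ⟨hwr, ha, hdom⟩ := hw w hws hwA
      obtain ⟨U, hUdef⟩ : ∃ U, U = insert b A₀ ∪ Z ∪ W ∪ W.biUnion N := ⟨_, rfl⟩
      rw [← hUdef] at hl hf
      have hU' : insert b A₀ ∪ Z ∪ insert w W ∪ (insert w W).biUnion N =
          insert w U ∪ N w := by
        rw [hUdef, Finset.biUnion_insert]
        ext x
        simp only [mem_union, mem_insert]
        tauto
      have hmU : ∀ x, x ∈ U ↔ ((x = b ∨ x ∈ A₀) ∨ x ∈ Z) ∨ x ∈ W ∨ ∃ y ∈ W, x ∈ N y := by
        intro x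
        rw [hUdef]
        simp only [mem_union, mem_insert, mem_biUnion]
        tauto
      have hAU : A₀ ⊆ U := fun x hx => (hmU x).2 (Or.inl (Or.inl (Or.inr hx)))
      have hwU : w ∉ U := by
        rw [hmU]
        rintro (((rfl | h1) | h1) | h1 | ⟨y, h1, h2⟩)
        · exact hws rfl
        · exact hwA h1
        · exact hws (mem_filter.1 h1).2.2.1
        · exact hwW h1
        · exact hws (hsN y (hW y (mem_insert_of_mem h1)).1 w (mem_filter.1 h2).2.1)
      have hNs : ∀ j ∈ N w, side j = side b := fun j hj =>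
        hsN w hws j (mem_filter.1 hj).2.1
      have hNp : ∀ j ∈ N w, ∀ x, H.Adj j x → x ∈ A₀ ∨ x = w := by
        intro j hj
        obtain ⟨-, h1, h2⟩ := mem_filter.1 hj
        rcases (hdom j h1).1 with h3 | h3
        · exact absurd h3 h2
        · exact h3
      have hNU : ∀ j ∈ N w, j ∉ insert w U := by
        intro j hj
        obtain ⟨-, h1, h2⟩ := mem_filter.1 hj
        rw [mem_insert, hmU]
        rintro (rfl | ((rfl | h3) | h3) | h3 | ⟨y, h3, h4⟩)
        · exact H.loopless.irrefl _ h1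
        · exact h2 (hb _ ha)
        · exact hsA j h3 (hNs j hj)
        · exact h2 ((mem_filter.1 h3).2.2.2 w hws hwA h1)
        · exact (hW j (mem_insert_of_mem h3)).1 (hNs j hj)
        · obtain ⟨-, h5, -⟩ := mem_filter.1 h4
          rcases hNp j hj y h5.symm with h6 | h6
          · exact (hW y (mem_insert_of_mem h3)).2 h6
          · exact hwW (h6 ▸ h3)
      obtain ⟨R, hRdef⟩ : ∃ R : Finset V, R = univ.filter fun u => H.Adj w u ∧ H.Adj u (a w) :=
        ⟨_, rfl⟩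
      have hmR : ∀ u, u ∈ R ↔ H.Adj w u ∧ H.Adj u (a w) := by
        intro u
        rw [hRdef]
        simp
      have hRZ : R ⊆ insert b Z := by
        intro u hu
        obtain ⟨h1, h2⟩ := (hmR u).1 hu
        rw [mem_insert]
        by_cases h7 : u = b
        · exact Or.inl h7
        · refine Or.inr (mem_filter.2 ⟨mem_univ _, h7, hsN w hws u h1, ?_⟩)
          intro w' h3 h4 h5
          rcases ((hw w' h3 h4).2.2 u h5).1 with h6 | h6
          · exact h6
          · rcases h6 w h1.symm with h8 | h8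
            · exact absurd h8 hwA
            · rw [← h8]
              exact h2
      have hRU : R ⊆ U := by
        intro u hu
        rcases mem_insert.1 (hRZ hu) with h1 | h1
        · exact (hmU u).2 (Or.inl (Or.inl (Or.inl h1)))
        · exact (hmU u).2 (Or.inl (Or.inr h1))
      rw [hU']
      exact block_step h hs hl hf hAU hsA hws hwr ha (fun u hu => (hdom u hu).2) hmR
        (fun u => by simp [N]) hwU hNs hNp hNU hRZ hRU
  let W : Finset V := univ.filter fun w => side w ≠ side b ∧ w ∉ A₀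
  obtain ⟨ρ, L, hl, -⟩ := key W fun w hw => (mem_filter.1 hw).2
  have hU : insert b A₀ ∪ Z ∪ W ∪ W.biUnion N = univ := by
    ext x
    simp only [mem_union, mem_insert, mem_biUnion, mem_univ, iff_true]
    by_cases h1 : side x = side b
    · by_cases h2 : x = b
      · exact Or.inl (Or.inl (Or.inl (Or.inl h2)))
      · by_cases h3 : ∀ w, side w ≠ side b → w ∉ A₀ → H.Adj w x → H.Adj x (a w)
        · exact Or.inl (Or.inl (Or.inr (mem_filter.2 ⟨mem_univ _, h2, h1, h3⟩)))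
        · push Not at h3
          obtain ⟨w, h4, h5, h6, h7⟩ := h3
          exact Or.inr ⟨w, mem_filter.2 ⟨mem_univ _, h4, h5⟩,
            mem_filter.2 ⟨mem_univ _, h6, h7⟩⟩
    · by_cases h2 : x ∈ A₀
      · exact Or.inl (Or.inl (Or.inl (Or.inr h2)))
      · exact Or.inl (Or.inr (mem_filter.2 ⟨mem_univ _, h1, h2⟩))
  rw [hU] at hl
  exact ⟨ρ, L, hl⟩

end Main

/-- graphs with a hub and private vertices -/
theorem gsid_of_priv {V : Type} [Fintype V] [DecidableEq V] {H : SimpleGraph V}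
    {side : V → Bool} (hs : ∀ u v, H.Adj u v → side u ≠ side v) {b : V} {A₀ : Finset V}
    (hb : ∀ a ∈ A₀, H.Adj b a) (hz : ∀ z, side z = side b → ∃ a ∈ A₀, H.Adj z a)
    (hw : ∀ w, side w ≠ side b → w ∉ A₀ → ∃ r a, H.Adj w r ∧ a ∈ A₀ ∧
      ∀ u, H.Adj w u → (H.Adj u a ∨ ∀ x, H.Adj u x → x ∈ A₀ ∨ x = w) ∧
        ∀ x ∈ A₀, H.Adj u x → x = a ∨ H.Adj r x) : GSid H side := by
  classical
  have hA : A₀.Nonempty := by
    obtain ⟨a, ha, -⟩ := hz b rfl
    exact ⟨a, ha⟩
  have hw' : ∀ w, ∃ p : V × V, side w ≠ side b → w ∉ A₀ → H.Adj w p.1 ∧ p.2 ∈ A₀ ∧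
      ∀ u, H.Adj w u → (H.Adj u p.2 ∨ ∀ x, H.Adj u x → x ∈ A₀ ∨ x = w) ∧
        ∀ x ∈ A₀, H.Adj u x → x = p.2 ∨ H.Adj p.1 x := by
    intro w
    by_cases h1 : side w ≠ side b
    · by_cases h2 : w ∉ A₀
      · obtain ⟨r, a, h3⟩ := hw w h1 h2
        exact ⟨(r, a), fun _ _ => h3⟩
      · exact ⟨(w, w), fun _ h3 => absurd h3 h2⟩
    · exact ⟨(w, w), fun h3 => absurd h3 h1⟩
  choose p hp using hw'
  refine gsid_of_rev H side hs ?_ ?_
  · intro v
    by_cases h1 : side v = side b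
    · obtain ⟨a, -, ha⟩ := hz v h1
      exact ⟨a, ha⟩
    · by_cases h2 : v ∈ A₀
      · exact ⟨b, (hb v h2).symm⟩
      · obtain ⟨r, -, hr, -⟩ := hw v h1 h2
        exact ⟨r, hr⟩
  · intro S _ _ _ A μ c h
    obtain ⟨ρ, L, hl⟩ := priv_law (side := side) h hs hA hb hz (fun w => (p w).1)
      (fun w => (p w).2) hp
    exact hl.sum_wt_ge h

end Vale.Agent.P050.Books
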