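import Vale.Agent.P050.R5.H557.Ord2
import Vale.Agent.P050.R4.H22.Near
import Vale.Agent.P050.H148.NearGraph

/-!
# P050: from reversible chains to graphs, with a loss
-/

set_option linter.unusedSectionVars false

namespace Vale.Agent.P050.Books

open Finset Vale.Agent.P050.Lev Vale.Agent.P050.Ears Vale.Agent.P050.H149 Vale.Agent.P050.H148

section Red

variable {V : Type} [Fintype V] [DecidableEq V]

/-- The two-sided inequality with the loss `δ ^ k` for biregular kernels with values at most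
`1 / δ`. -/
def BiregNear (E : Finset (V × V)) (side : V → Bool) (k : ℝ) : Prop :=
  ∀ (U : Type) [Fintype U] (m : Bool → U → ℝ) (W : U → U → ℝ), (∀ b x, 0 ≤ m b x) →
    (∀ b, ∑ x, m b x = 1) → (∀ x y, 0 ≤ W x y) →
    (∀ x, m false x ≠ 0 → ∑ y, m true y * W x y = 1) →
    (∀ y, m true y ≠ 0 → ∑ x, m false x * W x y = 1) →
    ∀ δ : ℝ, 0 < δ → δ ≤ 1 → (∀ x y, W x y * δ ≤ 1) →
    δ ^ k ≤ ∑ z : V → U, (∏ v, m (side v) (z v)) * ∏ e ∈ E, W (z e.1) (z e.2)

theorem wt2_le_one {U : Type} {N : ℕ} {W : U → U → ℝ} (hW : ∀ x y, 0 ≤ W x y)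
    (hW1 : ∀ x y, W x y ≤ 1) (u v : Fin N → U) : wt2 W u v ≤ 1 :=
  Finset.prod_le_one (fun _ _ => hW _ _) fun _ _ => hW1 _ _

theorem dg_le_card_LB {U : Type} [Fintype U] {N : ℕ} {τ : U × U → Fin (N + 1)}
    (u₀ : Fin N → U) : dg τ u₀ ≤ (LB τ).card := by
  classical
  unfold dg
  refine Finset.card_le_card fun v hv => ?_
  exact mem_LB (mem_filter.1 hv).2

theorem key_near {E : Finset (V × V)} {side : V → Bool} {k : ℝ} (hk : 0 ≤ k)
    (hdir : ∀ e ∈ E, side e.1 = false ∧ side e.2 = true)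
    (hiso : ∀ v, ∃ e ∈ E, e.1 = v ∨ e.2 = v) (hB : BiregNear E side k)
    {U : Type} [Fintype U] (m : Bool → U → ℝ) (W : U → U → ℝ) (hm : ∀ b x, 0 ≤ m b x)
    (hm1 : ∀ b, ∑ x, m b x = 1) (hW : ∀ x y, 0 ≤ W x y) (hW1 : ∀ x y, W x y ≤ 1)
    (N : ℕ) {τ : U × U → Fin (N + 1)} {u₀ v₀ : Fin N → U} (h₀ : ty u₀ v₀ = τ) :
    0 ≤ qU τ m W ∧ qU τ m W ^ E.card * qU τ m W ^ k ≤ H149.dens E side m W ^ N := by
  classical
  have hB0 := card_LB_pos h₀
  have hd0 := dg_pos h₀
  set δ : ℝ := dg τ u₀ / (LB τ).card with hδ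
  have hδ0 : 0 < δ := div_pos hd0 hB0
  have hδ1 : δ ≤ 1 := by
    rw [hδ, div_le_one hB0]
    exact_mod_cast dg_le_card_LB u₀
  have h1 : δ ^ k ≤ H149.dens E side (mU τ) (WU τ (dg τ u₀)) :=
    hB (Fin N → U) (mU τ) (WU τ (dg τ u₀)) (mU_nonneg τ) (mU_sum h₀) (WU_nonneg τ _)
      (WU_row h₀) (WU_col h₀) δ hδ0 hδ1 (by
        intro x y
        unfold WU
        split_ifs
        · rw [hδ]
          apply le_of_eq
          field_simp
        · rw [zero_mul]
          exact zero_le_one)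
  have hc0 := cU_nonneg τ hm u₀ v₀
  have hc1 := cU_le_one hm hm1 h₀
  set c := cU τ m u₀ v₀ with hc
  have hω0 := wt2_nonneg hW u₀ v₀
  have hω1 := wt2_le_one hW hW1 u₀ v₀
  set κ := wt2 W u₀ v₀ * dg τ u₀ / (LB τ).card with hκ
  have hκ0 : 0 ≤ κ := by positivity
  have hκδ : κ ≤ δ := by
    rw [hκ, mul_div_assoc]
    exact mul_le_of_le_one_left hδ0.le hω1
  have hcmp : (∏ v, c (side v)) * κ ^ E.card * H149.dens E side (mU τ) (WU τ (dg τ u₀)) ≤
      H149.dens E side m W ^ N := by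
    rw [dens_pow]
    unfold H149.dens
    rw [mul_sum]
    refine sum_le_sum fun z _ => ?_
    calc (∏ v, c (side v)) * κ ^ E.card *
          ((∏ v, mU τ (side v) (z v)) * ∏ e ∈ E, WU τ (dg τ u₀) (z e.1) (z e.2))
        = (∏ v, c (side v) * mU τ (side v) (z v)) *
          ∏ e ∈ E, κ * WU τ (dg τ u₀) (z e.1) (z e.2) := by
          rw [prod_mul_distrib, prod_mul_distrib, prod_const]
          ring
      _ ≤ _ := by
          refine mul_le_mul ?_ ?_ ?_ ?_
          · exact prod_le_prod (fun v _ => mul_nonneg (hc0 _) (mU_nonneg τ _ _))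
              fun v _ => cU_mul_le hm h₀ _ _
          · exact prod_le_prod (fun e _ => mul_nonneg hκ0 (WU_nonneg τ _ _ _))
              fun e _ => WU_mul_le hW h₀ _ _
          · exact prod_nonneg fun e _ => mul_nonneg hκ0 (WU_nonneg τ _ _ _)
          · exact prod_nonneg fun v _ => H149.wt_nonneg (hm _) _
  have hq := qU_eq m W h₀
  have hcc : c false * c true ≤ 1 := mul_le_one₀ (hc1 false) (hc0 true) (hc1 true)
  have hcc0 : 0 ≤ c false * c true := mul_nonneg (hc0 _) (hc0 _)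
  have hq0 : 0 ≤ qU τ m W := by
    rw [hq]
    exact mul_nonneg hcc0 hκ0
  have hqδ : qU τ m W ≤ δ := by
    rw [hq]
    exact (mul_le_of_le_one_left hκ0 hcc).trans hκδ
  refine ⟨hq0, ?_⟩
  calc qU τ m W ^ E.card * qU τ m W ^ k ≤ qU τ m W ^ E.card * δ ^ k :=
        mul_le_mul_of_nonneg_left (Real.rpow_le_rpow hq0 hqδ hk) (pow_nonneg hq0 _)
    _ ≤ qU τ m W ^ E.card * H149.dens E side (mU τ) (WU τ (dg τ u₀)) :=
        mul_le_mul_of_nonneg_left h1 (pow_nonneg hq0 _)
    _ = (c false * c true) ^ E.card * κ ^ E.card * H149.dens E side (mU τ) (WU τ (dg τ u₀)) := by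
        rw [hq, mul_pow]
    _ ≤ (∏ v, c (side v)) * κ ^ E.card * H149.dens E side (mU τ) (WU τ (dg τ u₀)) := by
        refine mul_le_mul_of_nonneg_right (mul_le_mul_of_nonneg_right
          (prod_side_ge hdir hiso c hc0 hc1) (pow_nonneg hκ0 _)) ?_
        exact (Real.rpow_nonneg hδ0.le k).trans h1
    _ ≤ _ := hcmp

/-- **Reduction to biregular kernels**, with a loss. -/
theorem near_of_bireg {E : Finset (V × V)} {side : V → Bool} {k : ℝ} (hk : 0 ≤ k)
    (hdir : ∀ e ∈ E, side e.1 = false ∧ side e.2 = true)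
    (hiso : ∀ v, ∃ e ∈ E, e.1 = v ∨ e.2 = v) (hB : BiregNear E side k)
    {U : Type} [Fintype U] (m : Bool → U → ℝ) (W : U → U → ℝ) (hm : ∀ b x, 0 ≤ m b x)
    (hm1 : ∀ b, ∑ x, m b x = 1) (hW : ∀ x y, 0 ≤ W x y) (hW1 : ∀ x y, W x y ≤ 1) :
    kernelMean m W ^ E.card * kernelMean m W ^ k ≤ H149.dens E side m W := by
  classical
  set p := kernelMean m W with hp
  have hp0 : 0 ≤ p := kp_nonneg hm hW
  have hp1 : p ≤ 1 := kp_le_one hm hm1 hW1
  have ht0 : 0 ≤ H149.dens E side m W := sum_nonneg fun z _ =>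
    mul_nonneg (prod_nonneg fun v _ => hm _ _) (prod_nonneg fun e _ => hW _ _)
  rcases Nat.eq_zero_or_pos E.card with hE | hE
  · -- no edges, hence no vertices
    have hV : IsEmpty V := ⟨fun v => by
      obtain ⟨e, he, _⟩ := hiso v
      rw [card_eq_zero] at hE
      rw [hE] at he
      exact absurd he (notMem_empty _)⟩
    rw [hE, pow_zero, one_mul]
    have h1 : H149.dens E side m W = 1 := by
      unfold H149.dens
      rw [card_eq_zero] at hE
      subst hE
      simp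
    rw [h1]
    exact Real.rpow_le_one hp0 hp1 hk
  set c := Fintype.card (U × U) with hc
  set k' := c * E.card + c * ⌈k⌉₊ with hk'
  have hN : ∀ N : ℕ, (p ^ E.card * p ^ k) ^ N ≤ H149.dens E side m W ^ N * ((N : ℝ) + 1) ^ k' := by
    intro N
    have hsum := sum_qU m W N
    change _ = p ^ N at hsum
    have hne : (univ : Finset (U × U → Fin (N + 1))).Nonempty := univ_nonempty
    obtain ⟨τ, _, hτ⟩ := exists_le_of_sum_le (s := univ)
      (f := fun _ : U × U → Fin (N + 1) => p ^ N / ((N : ℝ) + 1) ^ Fintype.card (U × U))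
      (g := fun τ => qU τ m W) hne (by
        rw [hsum, sum_const, nsmul_eq_mul, card_univ, Fintype.card_fun, Fintype.card_fin]
        push_cast
        have : (0 : ℝ) < ((N : ℝ) + 1) ^ Fintype.card (U × U) := by positivity
        rw [mul_div_cancel₀ _ this.ne'])
    have hτ' : p ^ N / ((N : ℝ) + 1) ^ c ≤ qU τ m W := hτ
    have hx1 : (1 : ℝ) ≤ (N : ℝ) + 1 := by
      have : (0 : ℝ) ≤ N := Nat.cast_nonneg N
      linarith
    set x : ℝ := ((N : ℝ) + 1) ^ c with hx
    have hpos : (0 : ℝ) < x := by positivity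
    have hx1' : 1 ≤ x := one_le_pow₀ hx1
    have hpN : p ^ N ≤ qU τ m W * x := (div_le_iff₀ hpos).1 hτ'
    by_cases hex : ∃ u₀ v₀, ty u₀ v₀ = τ
    · obtain ⟨u₀, v₀, h₀⟩ := hex
      obtain ⟨hq0, h2⟩ := key_near hk hdir hiso hB m W hm hm1 hW hW1 N h₀
      have e1 : (p ^ E.card * p ^ k) ^ N = (p ^ N) ^ E.card * (p ^ N) ^ k := by
        rw [mul_pow, ← pow_mul, ← pow_mul, mul_comm E.card N]
        congr 1
        rw [← Real.rpow_natCast (p ^ k) N, ← Real.rpow_mul hp0, mul_comm k,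
          Real.rpow_mul hp0, Real.rpow_natCast]
      rw [e1]
      have h3 : (p ^ N) ^ E.card ≤ (qU τ m W * x) ^ E.card :=
        pow_le_pow_left₀ (pow_nonneg hp0 _) hpN _
      have h4 : (p ^ N) ^ k ≤ (qU τ m W * x) ^ k :=
        Real.rpow_le_rpow (pow_nonneg hp0 _) hpN hk
      have h5 : x ^ k ≤ x ^ ⌈k⌉₊ := by
        rw [← Real.rpow_natCast x ⌈k⌉₊]
        exact Real.rpow_le_rpow_of_exponent_le hx1' (Nat.le_ceil k)
      calc (p ^ N) ^ E.card * (p ^ N) ^ k
          ≤ (qU τ m W * x) ^ E.card * (qU τ m W * x) ^ k :=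
            mul_le_mul h3 h4 (Real.rpow_nonneg (pow_nonneg hp0 _) _)
              (pow_nonneg (mul_nonneg hq0 hpos.le) _)
        _ = (qU τ m W ^ E.card * qU τ m W ^ k) * (x ^ E.card * x ^ k) := by
            rw [mul_pow, Real.mul_rpow hq0 hpos.le]
            ring
        _ ≤ H149.dens E side m W ^ N * (x ^ E.card * x ^ ⌈k⌉₊) := by
            refine mul_le_mul h2 (mul_le_mul_of_nonneg_left h5 (pow_nonneg hpos.le _))
              (mul_nonneg (pow_nonneg hpos.le _) (Real.rpow_nonneg hpos.le _))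
              (pow_nonneg ht0 _)
        _ = H149.dens E side m W ^ N * ((N : ℝ) + 1) ^ k' := by
            rw [hk', hx, ← pow_mul, ← pow_mul, ← pow_add]
    · have hq0 : qU τ m W = 0 := by
        unfold qU
        exact sum_eq_zero fun u _ => sum_eq_zero fun v _ => if_neg fun h => hex ⟨u, v, h⟩
      have h3 : p ^ N = 0 := by
        refine le_antisymm ?_ (pow_nonneg hp0 _)
        rw [hq0, zero_mul] at hpN
        exact hpN
      have e1 : (p ^ E.card * p ^ k) ^ N = (p ^ N) ^ E.card * (p ^ k) ^ N := by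
        rw [mul_pow, ← pow_mul, ← pow_mul, mul_comm E.card N]
      rw [e1, h3, zero_pow hE.ne', zero_mul]
      positivity
  -- the limit
  rcases hp0.eq_or_lt with hp0' | hppos
  · rw [← hp0', zero_pow hE.ne', zero_mul]
    exact ht0
  have hpE : 0 < p ^ E.card * p ^ k := mul_pos (pow_pos hppos _) (Real.rpow_pos_of_pos hppos _)
  by_contra hlt
  rw [not_le] at hlt
  set r := H149.dens E side m W / (p ^ E.card * p ^ k) with hr
  have hr0 : 0 ≤ r := div_nonneg ht0 hpE.le
  have hr1 : r < 1 := (div_lt_one hpE).2 hlt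
  have hge : ∀ N : ℕ, 1 ≤ ((N : ℝ) + 1) ^ k' * r ^ N := by
    intro N
    rw [hr, div_pow, mul_div_assoc', le_div_iff₀ (pow_pos hpE _), one_mul]
    exact (hN N).trans_eq (mul_comm _ _)
  have hlim := tendsto_pow_const_mul_const_pow_of_abs_lt_one k' (r := r) (by
    rw [abs_of_nonneg hr0]; exact hr1)
  have hlim' := hlim.comp (Filter.tendsto_add_atTop_nat 1)
  have : r ≤ 0 := by
    refine ge_of_tendsto' hlim' fun N => ?_
    simp only [Function.comp_apply]
    push_cast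
    calc r = 1 * r := (one_mul r).symm
      _ ≤ (((N : ℝ) + 1) ^ k' * r ^ N) * r := mul_le_mul_of_nonneg_right (hge N) hr0
      _ = ((N : ℝ) + 1) ^ k' * r ^ (N + 1) := by rw [pow_succ]; ring
  have hr00 : r = 0 := le_antisymm this hr0
  have := hge 1
  rw [hr00] at this
  norm_num at this

end Red

end Vale.Agent.P050.Books
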