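import Vale.Agent.P050.R5.H557.Block

/-!
# P050: a vertex with shared and private neighbours
-/

set_option linter.unusedSectionVars false

namespace Vale.Agent.P050.Books

open Finset Vale.Agent.P050.Lev Vale.Agent.P050.Ears

section Priv

variable {V S : Type} [Fintype V] [DecidableEq V] [Fintype S]
  {side : V → Bool} {A : Matrix S S ℝ} {μ : S → ℝ} {c : S → Bool}

omit [Fintype V] in
theorem depOn_priv {U : Finset V} (Rj : V → Finset V) (N : Finset V)
    (hR : ∀ j ∈ N, Rj j ⊆ U) :
    DepOn (U ∪ N) (fun z : V → S => ∏ j ∈ N, ∏ i ∈ Rj j, kk A μ (z i) (z j)) := by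
  intro z z' hz
  refine Finset.prod_congr rfl fun j hj => Finset.prod_congr rfl fun i hi => ?_
  rw [hz i (mem_union_left _ (hR j hj hi)), hz j (mem_union_right _ hj)]

/-- integration of private vertices -/
theorem EM_priv (h : Rev A μ c) {U : Finset V} (Rj : V → Finset V) (N : Finset V)
    (hN : ∀ j ∈ N, j ∉ U) (hR : ∀ j ∈ N, Rj j ⊆ U) (hn : ∀ j ∈ N, (Rj j).Nonempty)
    (hsd : ∀ j ∈ N, ∀ i ∈ Rj j, side i ≠ side j) (F : (V → S) → ℝ) (hF : DepOn U F) :
    EM side μ c (fun z => F z * ∏ j ∈ N, ∏ i ∈ Rj j, kk A μ (z i) (z j)) =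
      EM side μ c (fun z => F z * ∏ j ∈ N, hQ A μ (Rj j) z) := by
  induction N using Finset.induction_on generalizing F with
  | empty => simp
  | insert j N hj ih =>
    have hjm : j ∈ insert j N := mem_insert_self _ _
    have hjU : j ∉ U := hN j hjm
    have hRj : Rj j ⊆ U := hR j hjm
    have hRN : ∀ k ∈ N, Rj k ⊆ U := fun k hk => hR k (mem_insert_of_mem hk)
    have hjUN : j ∉ U ∪ N := by
      rw [mem_union, not_or]
      exact ⟨hjU, hj⟩
    have e1 : EM side μ c (fun z => F z * ∏ k ∈ insert j N, ∏ i ∈ Rj k, kk A μ (z i) (z k)) =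
        EM side μ c (fun z => (F z * ∏ k ∈ N, ∏ i ∈ Rj k, kk A μ (z i) (z k)) *
          ∏ i ∈ Rj j, kk A μ (z i) (z j)) :=
      EM_congr fun z _ => by rw [Finset.prod_insert hj]; ring
    have hdep : DepOn (U ∪ N)
        (fun z : V → S => F z * ∏ k ∈ N, ∏ i ∈ Rj k, kk A μ (z i) (z k)) :=
      (hF.mono Finset.subset_union_left).mul (depOn_priv Rj N hRN)
    have e2 := EM_int (side := side) h hjUN hdep
      (r := fun z => ∏ i ∈ Rj j, kk A μ (z i) (z j)) (g := hQ A μ (Rj j)) (by
        intro z hz _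
        obtain ⟨i, hi⟩ := hn j hjm
        rw [← hQ_eq h hi (v := j) (side := side)]
        · refine Finset.sum_congr rfl fun x _ => ?_
          congr 1
          refine Finset.prod_congr rfl fun k hk => ?_
          rw [Function.update_self, Function.update_of_ne]
          rintro rfl
          exact hjU (hRj hk)
        · rw [side_of_M hz i]
          exact hsd j hjm i hi)
    have e3 : EM side μ c (fun z => (F z * ∏ k ∈ N, ∏ i ∈ Rj k, kk A μ (z i) (z k)) *
        hQ A μ (Rj j) z) = EM side μ c (fun z => (F z * hQ A μ (Rj j) z) *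
          ∏ k ∈ N, ∏ i ∈ Rj k, kk A μ (z i) (z k)) := EM_congr fun z _ => by ring
    rw [e1, e2, e3, ih (fun k hk => hN k (mem_insert_of_mem hk)) hRN
      (fun k hk => hn k (mem_insert_of_mem hk)) (fun k hk => hsd k (mem_insert_of_mem hk))
      (fun z => F z * hQ A μ (Rj j) z) (hF.mul ((depOn_hQ (Rj j)).mono hRj))]
    exact EM_congr fun z _ => by rw [Finset.prod_insert hj]; ring

/-- the weight of `w`, joined to `R`, and of its private neighbours `N` -/
noncomputable def Wp (A : Matrix S S ℝ) (μ : S → ℝ) (R N : Finset V) (Q : V → Finset V) (w : V)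
    (z : V → S) : ℝ :=
  (∏ u ∈ R, kk A μ (z u) (z w)) * ∏ j ∈ N, ∏ i ∈ insert w (Q j), kk A μ (z i) (z j)

/-- the same after integration of the private neighbours -/
noncomputable def Th (A : Matrix S S ℝ) (μ : S → ℝ) (R N : Finset V) (Q : V → Finset V) (w : V)
    (z : V → S) : ℝ :=
  (∏ u ∈ R, kk A μ (z u) (z w)) * ∏ j ∈ N, hQ A μ (insert w (Q j)) z

/-- the same after integration of `w` (which is on the side of `a`) -/
noncomputable def Ps (side : V → Bool) (A : Matrix S S ℝ) (μ : S → ℝ) (c : S → Bool)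
    (R N : Finset V) (Q : V → Finset V) (a : V) (z : V → S) : ℝ :=
  ∑ x, mm side μ c a x * ((∏ u ∈ R, kk A μ (z u) x) *
    ∏ j ∈ N, ∑ s, μ s * (kk A μ x s * ∏ i ∈ Q j, kk A μ (z i) s))

omit [Fintype V] in
theorem Th_update (R N : Finset V) (Q : V → Finset V) {v : V} (hR : v ∉ R)
    (hQ : ∀ j ∈ N, v ∉ Q j) (z : V → S) (x : S) :
    Th A μ R N Q v (Function.update z v x) = (∏ u ∈ R, kk A μ (z u) x) *
      ∏ j ∈ N, ∑ s, μ s * (kk A μ x s * ∏ i ∈ Q j, kk A μ (z i) s) := by
  unfold Th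
  congr 1
  · refine Finset.prod_congr rfl fun u hu => ?_
    rw [Function.update_self, Function.update_of_ne]
    rintro rfl
    exact hR hu
  · refine Finset.prod_congr rfl fun j hj => ?_
    unfold Books.hQ
    refine Finset.sum_congr rfl fun s _ => ?_
    rw [Finset.prod_insert (hQ j hj), Function.update_self]
    congr 2
    refine Finset.prod_congr rfl fun i hi => ?_
    rw [Function.update_of_ne]
    rintro rfl
    exact hQ j hj hi

theorem Th_sum {R N : Finset V} {Q : V → Finset V} {v a : V} (hR : v ∉ R)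
    (hQ : ∀ j ∈ N, v ∉ Q j) (hva : side v = side a) (z : V → S) :
    ∑ x, mm side μ c v x * Th A μ R N Q v (Function.update z v x) =
      Ps side A μ c R N Q a z := by
  unfold Ps
  refine Finset.sum_congr rfl fun x _ => ?_
  rw [Th_update R N Q hR hQ]
  unfold mm
  rw [hva]

theorem Wp_nonneg (h : Rev A μ c) (R N : Finset V) (Q : V → Finset V) (w : V) (z : V → S) :
    0 ≤ Wp A μ R N Q w z :=
  mul_nonneg (Finset.prod_nonneg fun _ _ => kk_nonneg h _ _)
    (Finset.prod_nonneg fun _ _ => Finset.prod_nonneg fun _ _ => kk_nonneg h _ _)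

theorem Th_nonneg (h : Rev A μ c) (R N : Finset V) (Q : V → Finset V) (w : V) (z : V → S) :
    0 ≤ Th A μ R N Q w z :=
  mul_nonneg (Finset.prod_nonneg fun _ _ => kk_nonneg h _ _)
    (Finset.prod_nonneg fun _ _ => hQ_nonneg h _ _)

theorem Ps_nonneg (h : Rev A μ c) (R N : Finset V) (Q : V → Finset V) (a : V) (z : V → S) :
    0 ≤ Ps side A μ c R N Q a z :=
  Finset.sum_nonneg fun _ _ => mul_nonneg (mm_nonneg h _ _) (mul_nonneg
    (Finset.prod_nonneg fun _ _ => kk_nonneg h _ _)
    (Finset.prod_nonneg fun _ _ => Finset.sum_nonneg fun s _ => mul_nonneg (h.pos s).le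
      (mul_nonneg (kk_nonneg h _ _) (Finset.prod_nonneg fun _ _ => kk_nonneg h _ _))))

theorem depOn_Ps {U R N : Finset V} {Q : V → Finset V} {a : V} (hR : R ⊆ U)
    (hQ : ∀ j ∈ N, Q j ⊆ U) : DepOn U (Ps side A μ c R N Q a) := by
  intro z z' hz
  unfold Ps
  refine Finset.sum_congr rfl fun x _ => ?_
  congr 2
  · exact Finset.prod_congr rfl fun u hu => by rw [hz u (hR hu)]
  · refine Finset.prod_congr rfl fun j hj => Finset.sum_congr rfl fun s _ => ?_
    congr 2
    exact Finset.prod_congr rfl fun i hi => by rw [hz i (hQ j hj hi)]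

theorem depOn_Th {U R N : Finset V} {Q : V → Finset V} {w : V} (hR : R ⊆ U)
    (hQ : ∀ j ∈ N, Q j ⊆ U) : DepOn (insert w U) (Th A μ R N Q w) := by
  intro z z' hz
  unfold Th
  congr 1
  · exact Finset.prod_congr rfl fun u hu => by
      rw [hz u (mem_insert_of_mem (hR hu)), hz w (mem_insert_self _ _)]
  · exact Finset.prod_congr rfl fun j hj =>
      depOn_hQ (insert w (Q j)) z z' fun u hu => hz u (Finset.insert_subset_insert w (hQ j hj) hu)

/-- integration of the whole weight -/
theorem EM_Wp (h : Rev A μ c) {U R N : Finset V} {Q : V → Finset V} {w a : V} (hw : w ∉ U)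
    (hR : R ⊆ U) (hQ : ∀ j ∈ N, Q j ⊆ U) (hN : ∀ j ∈ N, j ∉ insert w U)
    (hsw : ∀ j ∈ N, side w ≠ side j) (hsd : ∀ j ∈ N, ∀ i ∈ Q j, side i ≠ side j)
    (hwa : side w = side a) {f : (V → S) → ℝ} (hf : DepOn U f) :
    EM side μ c (fun z => f z * Wp A μ R N Q w z) =
      EM side μ c (fun z => f z * Ps side A μ c R N Q a z) := by
  have hdep : DepOn (insert w U) (fun z : V → S => f z * ∏ u ∈ R, kk A μ (z u) (z w)) := by
    refine (hf.mono (Finset.subset_insert _ _)).mul fun z z' hz => ?_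
    exact Finset.prod_congr rfl fun u hu => by
      rw [hz u (mem_insert_of_mem (hR hu)), hz w (mem_insert_self _ _)]
  have e1 : EM side μ c (fun z => f z * Wp A μ R N Q w z) =
      EM side μ c (fun z => (f z * ∏ u ∈ R, kk A μ (z u) (z w)) *
        ∏ j ∈ N, ∏ i ∈ insert w (Q j), kk A μ (z i) (z j)) :=
    EM_congr fun z _ => by unfold Wp; ring
  have e2 := EM_priv (side := side) h (U := insert w U) (fun j => insert w (Q j)) N hN
    (fun j hj => Finset.insert_subset_insert w (hQ j hj))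
    (fun j _ => ⟨w, mem_insert_self _ _⟩) (by
      intro j hj i hi
      rcases mem_insert.1 hi with rfl | hi
      · exact hsw j hj
      · exact hsd j hj i hi) _ hdep
  have e3 : EM side μ c (fun z => (f z * ∏ u ∈ R, kk A μ (z u) (z w)) *
      ∏ j ∈ N, Books.hQ A μ (insert w (Q j)) z) =
      EM side μ c (fun z => f z * Th A μ R N Q w z) :=
    EM_congr fun z _ => by unfold Th; ring
  rw [e1, e2, e3, EM_push h hw hf (Th A μ R N Q w)]
  refine EM_congr fun z _ => ?_
  rw [Th_sum (fun hm => hw (hR hm)) (fun j hj hm => hw (hQ j hj hm)) hwa]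

/-- THE TOP LEMMA with private neighbours -/
theorem IsFan.top_priv (h : Rev A μ c) {U : Finset V} {ρ : (V → S) → ℝ} (hρ : ∀ z, 0 ≤ ρ z)
    (hone : EM side μ c ρ = 1) {A₀ Z : Finset V} {Q Q' : V → Finset V}
    (hf : IsFan side A μ c U ρ A₀ Z Q) {R N P : Finset V} {a : V} (hR : R ⊆ Z) (haA : a ∈ A₀)
    (hPA : P ⊆ A₀) (haP : a ∉ P) (ha : ∀ u ∈ R, a ∈ Q u) (ht : ∀ u ∈ R, (Q u).erase a ⊆ P)
    (hQ' : ∀ j ∈ N, Q' j ⊆ P)
    (hd : (∃ r ∈ R, (Q r).erase a = P) ∨ ∃ j ∈ N, Q' j = P) :
    (∀ z, (∏ v, mm side μ c v (z v)) ≠ 0 → ρ z ≠ 0 → 0 < Ps side A μ c R N Q' a z) ∧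
    0 ≤ EM side μ c (fun z => ρ z * Real.log (Ps side A μ c R N Q' a z)) := by
  have haZ : a ∉ Z := fun hm => hf.sd a hm a haA rfl
  have haR : a ∉ R := fun hm => haZ (hR hm)
  have haPR : a ∉ P ∪ R := by
    rw [mem_union, not_or]
    exact ⟨haP, haR⟩
  have hinsA : ∀ j ∈ N, insert a (Q' j) ⊆ A₀ := fun j hj =>
    Finset.insert_subset haA ((hQ' j hj).trans hPA)
  have hkp : ∀ z, (∏ v, mm side μ c v (z v)) ≠ 0 → ρ z ≠ 0 → ∀ u ∈ R,
      0 < kk A μ (z u) (z a) := fun z hz h0 u hu => by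
    rw [kk_symm h]
    exact hf.kp z hz h0 u (hR hu) a (ha u hu)
  have hhp : ∀ z, (∏ v, mm side μ c v (z v)) ≠ 0 → ρ z ≠ 0 → ∀ j ∈ N,
      0 < hQ A μ (insert a (Q' j)) z := fun z hz h0 j hj => hf.pos h (hinsA j hj) z hz h0
  have hΘp : ∀ z, (∏ v, mm side μ c v (z v)) ≠ 0 → ρ z ≠ 0 → 0 < Th A μ R N Q' a z :=
    fun z hz h0 => mul_pos (Finset.prod_pos fun u hu => hkp z hz h0 u hu)
      (Finset.prod_pos fun j hj => hhp z hz h0 j hj)
  obtain ⟨g1, g2⟩ := DD_gibbs (side := side) h hρ hone haPR (Θ := Th A μ R N Q' a)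
    (Ψ := Ps side A μ c R N Q' a)
    (depOn_Th Finset.subset_union_right fun j hj => (hQ' j hj).trans Finset.subset_union_left)
    (Th_nonneg h R N Q' a) hΘp
    (fun z _ => Th_sum haR (fun j hj hm => haP (hQ' j hj hm)) rfl z)
    (depOn_Ps Finset.subset_union_right fun j hj => (hQ' j hj).trans Finset.subset_union_left)
    (Ps_nonneg h R N Q' a)
  refine ⟨g1, ?_⟩
  -- the mean logarithm of the weight
  have h1 : EM side μ c (fun z => ρ z * Real.log (Th A μ R N Q' a z)) =
      ∑ u ∈ R, ee side A μ c ρ u a + ∑ j ∈ N, DD side μ c ρ (insert a (Q' j)) := by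
    have e1 : ∀ j ∈ N, DD side μ c ρ (insert a (Q' j)) = MM side A μ c ρ (insert a (Q' j)) :=
      fun j hj => (hf.star _ (hinsA j hj) ⟨a, mem_insert_self _ _⟩).symm
    rw [Finset.sum_congr rfl e1]
    unfold ee MM
    rw [← EM_sum R fun u z => ρ z * Real.log (kk A μ (z u) (z a)),
      ← EM_sum N fun j z => ρ z * Real.log (hQ A μ (insert a (Q' j)) z), ← EM_add]
    refine EM_congr fun z hz => ?_
    by_cases h0 : ρ z = 0
    · rw [h0]
      simp
    · unfold Th
      rw [Real.log_mul (Finset.prod_pos fun u hu => hkp z hz h0 u hu).ne'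
        (Finset.prod_pos fun j hj => hhp z hz h0 j hj).ne',
        Real.log_prod (fun u hu => (hkp z hz h0 u hu).ne'),
        Real.log_prod (fun j hj => (hhp z hz h0 j hj).ne'), ← Finset.mul_sum, ← Finset.mul_sum]
      ring
  -- (ii)
  have h2 : ∀ R' : Finset V, R' ⊆ R → DD side μ c ρ P + ∑ u ∈ R',
      (∑ i ∈ (Q u).erase a, ee side A μ c ρ i u - DD side μ c ρ ((Q u).erase a)) ≤
        DD side μ c ρ (P ∪ R') := by
    intro R'
    induction R' using Finset.induction_on with
    | empty =>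
      intro _
      rw [Finset.sum_empty, add_zero, Finset.union_empty]
    | insert u R' hu ih =>
      intro hsub
      have huR : u ∈ R := hsub (mem_insert_self _ _)
      have h3 := ih ((Finset.subset_insert _ _).trans hsub)
      have hQP : (Q u).erase a ⊆ P := ht u huR
      have huA : u ∉ A₀ := fun hm => hf.sd u (hR huR) u hm rfl
      have huW : u ∉ P ∪ R' := by
        rw [mem_union, not_or]
        exact ⟨fun hm => huA (hPA hm), hu⟩
      rw [Finset.sum_insert hu, Finset.union_insert]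
      rcases Finset.eq_empty_or_nonempty ((Q u).erase a) with h4 | h4
      · rw [h4, Finset.sum_empty, DD_empty (side := side) h hone]
        have h5 := DD_mono (side := side) h hρ hone (Finset.subset_insert u (P ∪ R'))
        linarith
      · have h5 := DD_kl (side := side) h hρ hone huW (R := (Q u).erase a)
          (hQP.trans Finset.subset_union_left) h4
          (fun i hi => hf.sd u (hR huR) i (hPA (hQP hi)))
          (fun z hz h0 i hi => hf.kp z hz h0 u (hR huR) i (Finset.mem_of_mem_erase hi))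
        rw [hf.star _ (hQP.trans hPA) h4] at h5
        linarith
  have h3 := h2 R (Finset.Subset.refl _)
  -- (iii)
  have hTA : insert a P ⊆ A₀ := Finset.insert_subset haA hPA
  have htT : ∀ u ∈ R, Q u ⊆ insert a P := by
    intro u hu x hx
    by_cases hxa : x = a
    · rw [hxa]
      exact mem_insert_self _ _
    · exact mem_insert_of_mem (ht u hu (Finset.mem_erase.2 ⟨hxa, hx⟩))
  have h4 := hf.fan (insert a P) hTA R hR htT
  have h5 : ∀ u ∈ R, ∑ i ∈ Q u, ee side A μ c ρ i u - MM side A μ c ρ (Q u) =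
      (ee side A μ c ρ u a + ∑ i ∈ (Q u).erase a, ee side A μ c ρ i u) -
        DD side μ c ρ (Q u) := by
    intro u hu
    rw [hf.star (Q u) (hf.qs u (hR hu)) (hf.qn u (hR hu)),
      ← Finset.add_sum_erase _ _ (ha u hu), ee_symm h ρ a u]
  rw [Finset.sum_congr rfl h5, Finset.sum_sub_distrib, Finset.sum_add_distrib,
    Finset.insert_union] at h4
  rw [Finset.sum_sub_distrib] at h3
  rw [h1] at g2
  -- monotonicity
  have hmon : ∀ u : V, 0 ≤ DD side μ c ρ (Q u) - DD side μ c ρ ((Q u).erase a) := fun u => by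
    have := DD_mono (side := side) h hρ hone (Finset.erase_subset a (Q u))
    linarith
  have hnn : ∀ j : V, 0 ≤ DD side μ c ρ (insert a (Q' j)) := fun j =>
    DD_nonneg (side := side) h hρ hone _
  have h6 : DD side μ c ρ (insert a P) - DD side μ c ρ P ≤
      (∑ u ∈ R, DD side μ c ρ (Q u) - ∑ u ∈ R, DD side μ c ρ ((Q u).erase a)) +
        ∑ j ∈ N, DD side μ c ρ (insert a (Q' j)) := by
    rw [← Finset.sum_sub_distrib]
    rcases hd with ⟨r, hr, hrP⟩ | ⟨j, hj, hjP⟩
    · have h7 : DD side μ c ρ (Q r) - DD side μ c ρ ((Q r).erase a) ≤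
          ∑ u ∈ R, (DD side μ c ρ (Q u) - DD side μ c ρ ((Q u).erase a)) :=
        Finset.single_le_sum (f := fun u => DD side μ c ρ (Q u) -
          DD side μ c ρ ((Q u).erase a)) (fun u _ => hmon u) hr
      have h8 : Q r = insert a P := by
        rw [← hrP, Finset.insert_erase (ha r hr)]
      rw [hrP, h8] at h7
      have h9 : 0 ≤ ∑ j ∈ N, DD side μ c ρ (insert a (Q' j)) :=
        Finset.sum_nonneg fun j _ => hnn j
      linarith
    · have h7 : DD side μ c ρ (insert a (Q' j)) ≤ ∑ j ∈ N, DD side μ c ρ (insert a (Q' j)) :=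
        Finset.single_le_sum (f := fun j => DD side μ c ρ (insert a (Q' j)))
          (fun j _ => hnn j) hj
      rw [hjP] at h7
      have h8 : 0 ≤ ∑ u ∈ R, (DD side μ c ρ (Q u) - DD side μ c ρ ((Q u).erase a)) :=
        Finset.sum_nonneg fun u _ => hmon u
      have h9 := DD_nonneg (side := side) h hρ hone P
      linarith
  linarith

end Priv

end Vale.Agent.P050.Books
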